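import Vale.Agent.P188.F.GDefs

/-! Part F: bounds for the defect of the height cocycle.
Plan.  `u p = A (φ p) - A p`.  `rg_box`: `v = A ζ`, `z = ζ * (ι v)⁻¹ ∈ u0` (`exists_sec`), `A z = 0`,
`ι v ∈ Z (C ‖ι v‖)` (`mem_Z`, `Z_A`), so `z ∈ Z (C ρ)` (`Z_mul`, `Z_inv`, `Z_mono`),
`‖z‖ ≤ C (1 + C ρ)^c` (`Z_norm`), `log (2 + ‖z‖) ≤ C log (2 + ρ)`.
`u (x ζ) - u 1 = (u x - u 1) + (u (x z) - u x) + (u (x z ι v) - u (x z))`: first and third by the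
first half of `Rg` (`ln_K` with `C₀ = 1`, `ln_tame`), second by the second half (`A x = 0` by
`A_e`, `K_sub_e`).  Rescale `ε`, absorb constants with `len_log`.
`defect_*`: `c (g s) - c g - c s = (u (α s) - u (α 1)) + O(CA * D)` (`norm_ah_le`, `α 1 = 1`). -/

namespace Vale.Agent.P188.Geo
variable (M : Geo) {H : Type*} [Group H] {α : H → M.G}

theorem dfc_log {a E : ℝ} (ha : 0 ≤ a) (hE : 1 ≤ E) (c : ℕ) : ∃ C : ℝ, 0 ≤ C ∧ ∀ ρ t : ℝ, 0 ≤ ρ →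
    0 ≤ t → t ≤ a * (1 + E * ρ) ^ c → Real.log (2 + t) ≤ C * Real.log (2 + ρ) := by
  have h0 : 1 ≤ (2 + a) * E ^ c :=
    one_le_mul_of_one_le_of_one_le (by linarith) (one_le_pow₀ hE)
  have h1 := Real.log_nonneg h0
  refine ⟨2 * Real.log ((2 + a) * E ^ c) + c, by positivity, fun ρ t hρ ht h => ?_⟩
  have h2 : (1 + E * ρ) ^ c ≤ (E * (2 + ρ)) ^ c :=
    pow_le_pow_left₀ (by positivity) (by linarith) c
  have h3 : 1 ≤ (E * (2 + ρ)) ^ c :=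
    one_le_pow₀ (one_le_mul_of_one_le_of_one_le hE (by linarith))
  have h4 : 2 + t ≤ (2 + a) * E ^ c * (2 + ρ) ^ c := by
    rw [mul_assoc, ← mul_pow]
    nlinarith [mul_le_mul_of_nonneg_left h2 ha]
  have h5 := Real.log_le_log (by linarith) h4
  rw [Real.log_mul (by positivity) (by positivity), Real.log_pow] at h5
  nlinarith [mul_le_mul_of_nonneg_left (len_log hρ) h1]

theorem dfc_red (hr : M.Rig α) (h1 : α 1 = 1) : ∃ (Cf : ℝ → ℝ) (D E : ℝ), 0 ≤ D ∧ 0 ≤ E ∧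
    ∀ g : H, ∃ φ : M.G → M.G, M.Rg Cf D φ ∧ ∀ s,
      ‖M.A (α (g * s)) - M.A (α g) - M.A (α s)‖ ≤
        ‖M.A (φ (α s)) - M.A (φ 1) - M.A (α s)‖ + E := by
  obtain ⟨Cf, D, hD, h⟩ := hr
  obtain ⟨C, hC, hA⟩ := M.norm_ah_le
  refine ⟨Cf, D, 2 * (C * D), hD, by positivity, fun g => ?_⟩
  obtain ⟨φ, h2, h3⟩ := h g
  have h4 : ∀ x, ‖M.A (α (g * x)) - M.A (φ (α x))‖ ≤ C * D := fun x => by
    have := (hA _).2.trans (mul_le_mul_of_nonneg_left (h3 x) (zero_le_one.trans hC))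
    rwa [A_mul, A_inv, neg_add_eq_sub] at this
  refine ⟨φ, h2, fun s => ?_⟩
  have h5 := h4 1
  rw [mul_one, h1] at h5
  have e : M.A (α (g * s)) - M.A (α g) - M.A (α s) = (M.A (φ (α s)) - M.A (φ 1) - M.A (α s)) +
      ((M.A (α (g * s)) - M.A (φ (α s))) - (M.A (α g) - M.A (φ 1))) := by abel
  rw [e]
  refine (norm_add_le _ _).trans (add_le_add_right ((norm_sub_le _ _).trans ?_) _)
  linarith [h4 s]

theorem rg_box (Cf : ℝ → ℝ) {D : ℝ} (hD : 0 ≤ D) {ε : ℝ} (hε : 0 < ε) : ∃ C : ℝ, 0 ≤ C ∧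
    ∀ φ, M.Rg Cf D φ → ∀ R ρ ℓ : ℝ, 0 ≤ R → 0 ≤ ρ → ∀ p ∈ M.Box R ρ ℓ,
      ‖M.A (φ p) - M.A (φ 1) - M.A p‖ ≤ ε * (R + ℓ) + C * Real.log (2 + ρ) := by
  obtain ⟨Ck, hCk, hk⟩ := M.ln_K 1 zero_le_one
  obtain ⟨ι, hι, hιA⟩ := M.exists_sec
  obtain ⟨Cι, hCι, hιn⟩ := (LinearMap.toContinuousLinearMap ι).bound
  obtain ⟨Cz, hCz, hz⟩ := M.mem_Z
  obtain ⟨Ca, hCa, ha⟩ := M.Z_A
  obtain ⟨Cm, hCm, hm⟩ := M.Z_mul
  obtain ⟨Cn, hCn, hn⟩ := M.Z_norm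
  have hB : 0 ≤ Cz * Cι * Ca := by positivity
  obtain ⟨Cl, hCl, hl⟩ := dfc_log (zero_le_one.trans hCn)
    (one_le_mul_of_one_le_of_one_le hCm (le_add_of_nonneg_right hB)) M.c
  obtain ⟨δ, hδ⟩ : ∃ δ, δ = ε / (Ck + Cι) := ⟨_, rfl⟩
  have d0 : 0 < δ := by rw [hδ]; positivity
  have d1 : δ * (Ck + Cι) = ε := by rw [hδ]; field_simp
  refine ⟨2 * (δ * Ck + δ + 2 * |Cf δ|) + D * Cl, by positivity, ?_⟩
  rintro φ hφ R ρ ℓ hR hρ _ ⟨x, hx, ζ, hζ, hℓ, rfl⟩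
  have x0 : M.A x = 0 := M.A_e (M.K_sub_e _ hx)
  have l0 : 0 ≤ ℓ := (norm_nonneg _).trans hℓ
  have i1 : ‖ι (M.A ζ)‖ ≤ Cι * ‖M.A ζ‖ := hιn _
  have i2 : ι (M.A ζ) ∈ M.Z ((1 + Cz * Cι * Ca) * ρ) := by
    refine M.Z_mono (by positivity) ?_ (hz _ (hι _))
    have b1 := mul_le_mul_of_nonneg_left (ha ρ hρ ζ hζ).2 hCι.le
    have b2 := mul_le_mul_of_nonneg_left (i1.trans b1) (zero_le_one.trans hCz)
    linarith
  have z1 := hm _ (by positivity) _ (M.Z_mono hρ (by nlinarith) hζ) _ (M.Z_inv i2)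
  have z2 := hn _ (by positivity) _ z1
  rw [← mul_assoc] at z2
  have z3 : M.A (ζ * (ι (M.A ζ))⁻¹) = 0 := by rw [A_mul, A_inv, hιA, add_neg_cancel]
  have t1 := hφ.1 δ d0 1 x
  have t2 := (hφ.2 x _ (M.Z_sub_u0 _ z1) z3).trans
    (mul_le_mul_of_nonneg_left (hl ρ _ hρ (norm_nonneg _) z2) hD)
  have t3 := hφ.1 δ d0 (x * (ζ * (ι (M.A ζ))⁻¹)) (x * ζ)
  have e1 : (x * (ζ * (ι (M.A ζ))⁻¹))⁻¹ * (x * ζ) = ι (M.A ζ) := by group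
  rw [inv_one, one_mul, x0, A_one, sub_self, sub_zero] at t1
  rw [e1, M.A_mul x (ζ * _), x0, z3, add_zero, sub_zero] at t3
  have e2 : M.A (φ (x * ζ)) - M.A (φ 1) - M.A (x * ζ) =
      (M.A (φ (x * ζ)) - M.A (φ (x * (ζ * (ι (M.A ζ))⁻¹))) - M.A (x * ζ)) +
      (M.A (φ (x * (ζ * (ι (M.A ζ))⁻¹))) - M.A (φ x)) + (M.A (φ x) - M.A (φ 1)) := by abel
  rw [e2]
  refine (norm_add₃_le).trans ?_
  have c1 := mul_le_mul_of_nonneg_left (hk _ R hR (fun _ _ => le_rfl) x (M.lb_one hx)) d0.le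
  have c2 := mul_le_mul_of_nonneg_left ((M.ln_tame (Or.inr (hι (M.A ζ)))).trans
    (add_le_add_left (i1.trans (mul_le_mul_of_nonneg_left hℓ hCι.le)) 1)) d0.le
  have c3 := mul_le_mul_of_nonneg_left (len_log hρ)
    (by positivity : 0 ≤ 2 * (δ * Ck + δ + 2 * |Cf δ|))
  have c4 := le_abs_self (Cf δ)
  have c5 : 0 ≤ δ * Cι * R := by positivity
  have c6 : 0 ≤ δ * Ck * ℓ := by positivity
  rw [← d1]
  linarith

theorem defect_one (hr : M.Rig α) (h1 : α 1 = 1) {ε : ℝ} (hε : 0 < ε) : ∃ C : ℝ, ∀ s g,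
    ‖M.A (α (g * s)) - M.A (α g) - M.A (α s)‖ ≤ ε * M.ln (α s) + C := by
  obtain ⟨Cf, D, E, -, -, h⟩ := M.dfc_red hr h1
  refine ⟨Cf ε + E, fun s g => ?_⟩
  obtain ⟨φ, h2, h3⟩ := h g
  have h4 := h2.1 ε hε 1 (α s)
  rw [inv_one, one_mul, A_one, sub_zero] at h4
  linarith [h3 s]

theorem defect_two (hr : M.Rig α) (h1 : α 1 = 1) {ε : ℝ} (hε : 0 < ε) : ∃ C : ℝ, 0 ≤ C ∧
    ∀ s, ∀ R ρ ℓ : ℝ, 0 ≤ R → 0 ≤ ρ → α s ∈ M.Box R ρ ℓ → ∀ g,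
      ‖M.A (α (g * s)) - M.A (α g) - M.A (α s)‖ ≤ ε * (R + ℓ) + C * Real.log (2 + ρ) := by
  obtain ⟨Cf, D, E, hD, hE, h⟩ := M.dfc_red hr h1
  obtain ⟨C, hC, hb⟩ := M.rg_box Cf hD hε
  refine ⟨C + 2 * E, by positivity, fun s R ρ ℓ hR hρ hs g => ?_⟩
  obtain ⟨φ, h2, h3⟩ := h g
  have h4 := mul_le_mul_of_nonneg_left (len_log hρ) hE
  linarith [h3 s, hb φ h2 R ρ ℓ hR hρ _ hs]

end Vale.Agent.P188.Geo
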