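import Vale.Agent.P188.F.Sub

/-! Part F: low walks end in small boxes.
Plan.  `walk_box`: walk `g`, `p j = α (g j)`, `Hh = max over j ≤ n of ‖A (p j)‖` (attained at `j₀`,
`Finset.exists_max_image`).  For `j ≤ n` apply `path_nf` to
`(List.range j).map fun i => (p i)⁻¹ * p (i+1)` (`tele_take`, `tele_prod`, steps of length
`≤ ℓ' = K ℓ + C + 1`, `r = fun _ => wmax * Hh`): `p j ∈ Box (wmax Hh + C (ℓ' + log (1+n)))
(C ℓ' (1+n)) Hh` (`A x = 0`).  `Near2` at `j₀` with `ε (wmax + 1) = 1/2` gives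
`Hh ≤ τ + Hh/2 + C' log (2+n)`, so `Hh ≤ 2 τ + C'' log (2+n)`; conclude at `j = n` (`Box_mono`).
`few`: `count_box`, `Phi (fun _ => R) ≤ d c R` (`Phi_le_add` from `0`, `vol_Phi_zero`),
`exp (C log (2+n)) ≤ (2 (n+1))^D` with `D = ⌈C⌉₊`. -/

namespace Vale.Agent.P188.Geo
variable (M : Geo) {H : Type*} [Group H] {S : Finset H} {K C : ℝ} {α : H → M.G} {h : H → M.V}

theorem few_log {B t : ℝ} (hB : 1 ≤ B) (ht : 0 ≤ t) :
    Real.log (2 + B * (1 + t)) ≤ (4 * B + 1) * Real.log (2 + t) := by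
  have h1 := len_log ht
  have h2 : Real.log (2 + B * (1 + t)) ≤ Real.log (2 * B * (2 + t)) :=
    Real.log_le_log (by positivity) (by nlinarith)
  rw [Real.log_mul (by positivity) (by positivity)] at h2
  have h3 := Real.log_le_sub_one_of_pos (show 0 < 2 * B by positivity)
  nlinarith

theorem few_wmax : 0 ≤ M.wmax := Finset.sum_nonneg fun _ _ => norm_nonneg _

theorem few_wv (v : M.V) (i) : M.wv v i ≤ M.wmax * ‖v‖ :=
  (real_inner_le_norm _ _).trans (mul_le_mul_of_nonneg_right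
    (Finset.single_le_sum (f := fun i => ‖M.wt i‖) (fun _ _ => norm_nonneg _) (Finset.mem_univ i))
    (norm_nonneg _))

theorem few_nf : ∃ C : ℝ, 1 ≤ C ∧ ∀ (p : ℕ → M.G) (n : ℕ) (ℓ a : ℝ), 1 ≤ ℓ → p 0 = 1 →
    (∀ j < n, M.ln ((p j)⁻¹ * p (j + 1)) ≤ ℓ) → (∀ j ≤ n, ‖M.A (p j)‖ ≤ a) → ∀ j ≤ n,
      p j ∈ M.Box (M.wmax * a + C * (ℓ + Real.log (2 + n))) (C * ℓ * (1 + n)) a := by
  obtain ⟨C, hC, h⟩ := M.path_nf
  refine ⟨C, hC, fun p n ℓ a hℓ h0 hs ha j hj => ?_⟩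
  obtain ⟨x, hx, ζ, hζ, he⟩ := h ((List.range j).map fun i => (p i)⁻¹ * p (i + 1)) ℓ
    (fun _ => M.wmax * a) hℓ (fun _ _ _ => rfl) (by
      intro b hb
      obtain ⟨i, hi, rfl⟩ := List.mem_map.1 hb
      exact hs i ((List.mem_range.1 hi).trans_le hj)) (by
      intro i hi m _
      have hi' : i ≤ j := by simpa using hi
      rw [tele_take p hi', h0, inv_one, one_mul]
      exact (M.few_wv _ m).trans (mul_le_mul_of_nonneg_left (ha i (hi'.trans hj)) M.few_wmax))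
  rw [tele_prod, h0, inv_one, one_mul] at he
  simp only [List.length_map, List.length_range] at hx hζ
  have hj' : (j : ℝ) ≤ n := by exact_mod_cast hj
  refine ⟨x, M.K_mono (fun i _ => ?_) hx, ζ, M.Z_mono (by positivity) (by gcongr) hζ, ?_, he⟩
  · have : Real.log (1 + j) ≤ Real.log (2 + n) := Real.log_le_log (by positivity) (by linarith)
    gcongr
  · have := ha j hj
    rwa [he, A_mul, M.A_e (M.K_sub_e _ hx), zero_add] at this

theorem walk_box (hα : IsQI (S : Set H) M.Q K C α) (h1 : α 1 = 1) (hn : M.Near2 α h) (ℓ : ℕ) :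
    ∃ C' : ℝ, 1 ≤ C' ∧ ∀ (n : ℕ) (τ : ℝ) (y : H), 0 ≤ τ → Walk (S : Set H) h ℓ τ n y →
      α y ∈ M.Box (2 * M.wmax * τ + C' * Real.log (2 + n)) (C' * (1 + n))
        (2 * τ + C' * Real.log (2 + n)) := by
  obtain ⟨hK, hC, hq, -⟩ := hα
  obtain ⟨Cp, hCp, hp⟩ := M.few_nf
  have hw := M.few_wmax
  obtain ⟨Cn, hCn, hn⟩ := hn (1 / (2 * (M.wmax + 1))) (by positivity)
  obtain ⟨L, hL⟩ : ∃ L, L = K * ℓ + C + 1 := ⟨_, rfl⟩
  have hL1 : 1 ≤ L := by rw [hL]; nlinarith [(Nat.cast_nonneg ℓ : (0 : ℝ) ≤ ℓ)]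
  have hB : 1 ≤ Cp * L := by nlinarith
  obtain ⟨E, hE⟩ : ∃ E, E = Cp * (2 * L + 1) + 2 * (Cn * (4 * (Cp * L) + 1)) := ⟨_, rfl⟩
  have hE0 : 0 ≤ E := by rw [hE]; positivity
  have hE1 : 0 ≤ Cp * (2 * L + 1) := by positivity
  have hE2 : 0 ≤ M.wmax * E := by positivity
  refine ⟨M.wmax * E + E + Cp * (2 * L + 1) + Cp * L, by linarith, ?_⟩
  rintro n τ y hτ ⟨g, g0, gn, gs, gt⟩
  obtain ⟨j₀, hj₀, hmax⟩ := Finset.exists_max_image (Finset.range (n + 1))
    (fun j => ‖M.A (α (g j))‖) ⟨0, by simp⟩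
  have hj₁ : j₀ ≤ n := Nat.lt_succ_iff.1 (Finset.mem_range.1 hj₀)
  set a := ‖M.A (α (g j₀))‖ with ha
  have ha0 : 0 ≤ a := norm_nonneg _
  have hl := len_log (Nat.cast_nonneg n : (0 : ℝ) ≤ n)
  have hlog := few_log hB (Nat.cast_nonneg n : (0 : ℝ) ≤ n)
  set lam := Real.log (2 + n) with hlam
  have h2 := hp (fun j => α (g j)) n L a hL1 (by simp only [g0, h1]) (fun j hj => by
    have a1 := (hq (g j) (g (j + 1))).2
    have a2 : wdist (S : Set H) (g j) (g (j + 1)) ≤ ℓ := by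
      unfold wdist; exact_mod_cast gs j hj
    rw [M.wdist_eq] at a1
    rw [hL]; nlinarith) fun j hj => hmax j (Finset.mem_range.2 (Nat.lt_succ_of_le hj))
  have h3 := hn (g j₀) _ _ _ (by positivity) (by positivity) (h2 j₀ hj₁)
  have h4 : Cp * (L + lam) ≤ Cp * (2 * L + 1) * lam := by
    rw [mul_assoc]; gcongr; nlinarith
  have h5 : 1 / (2 * (M.wmax + 1)) * (M.wmax * a + Cp * (L + lam) + a) ≤
      a / 2 + Cp * (2 * L + 1) * lam / 2 := by
    rw [one_div_mul_eq_div, div_le_iff₀ (by positivity)]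
    have : 0 ≤ Cp * (2 * L + 1) * lam * M.wmax := by positivity
    nlinarith
  have h6 : a ≤ τ + ‖h (g j₀) - M.A (α (g j₀))‖ := by
    have := norm_sub_norm_le (M.A (α (g j₀))) (h (g j₀))
    rw [norm_sub_rev] at this
    linarith [gt j₀ hj₁]
  have h7 : Cn * Real.log (2 + Cp * L * (1 + n)) ≤ Cn * ((4 * (Cp * L) + 1) * lam) := by gcongr
  have h8 : a ≤ 2 * τ + E * lam := by rw [hE]; nlinarith
  have h9 := h2 n le_rfl
  simp only [gn] at h9
  have hl0 : 0 ≤ lam := by linarith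
  refine M.Box_mono ?_ (by positivity) ?_ ?_ h9
  · have := mul_le_mul_of_nonneg_left h8 hw
    have b1 : 0 ≤ E * lam := by positivity
    have b2 : 0 ≤ Cp * L * lam := by positivity
    nlinarith
  · gcongr; linarith
  · have b1 : 0 ≤ M.wmax * E * lam := by positivity
    have b2 : 0 ≤ Cp * L * lam := by positivity
    have b3 : 0 ≤ Cp * (2 * L + 1) * lam := by positivity
    nlinarith

theorem few (hS : Subgroup.closure (S : Set H) = ⊤) (hα : IsQI (S : Set H) M.Q K C α)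
    (h1 : α 1 = 1) (hn : M.Near2 α h) : Few (S : Set H) h := by
  obtain ⟨C₀, hC₀, hc⟩ := M.count_box hS hα
  have hw := M.few_wmax
  refine ⟨M.d * M.c * (2 * M.wmax + 2 * C₀) + 1, by positivity, fun ℓ => ?_⟩
  obtain ⟨C', hC', hb⟩ := M.walk_box hα h1 hn ℓ
  obtain ⟨D, hD⟩ := exists_nat_ge (M.d * M.c * (C' + C₀ * C') + C₀ * (4 * C' + 1))
  refine ⟨2 ^ D, D, fun n τ F hτ hF => ?_⟩
  have hl := len_log (Nat.cast_nonneg n : (0 : ℝ) ≤ n)
  have hlog := few_log hC' (Nat.cast_nonneg n : (0 : ℝ) ≤ n)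
  have h5 : Real.exp (D * Real.log (2 + n)) ≤ 2 ^ D * ((n : ℝ) + 1) ^ D := by
    rw [Real.exp_nat_mul, Real.exp_log (by positivity), ← mul_pow]
    gcongr
    linarith [(Nat.cast_nonneg n : (0 : ℝ) ≤ n)]
  set lam := Real.log (2 + n) with hlam
  have hl0 : 0 ≤ lam := by linarith
  have b1 : 0 ≤ M.wmax * τ := by positivity
  have b2 : 0 ≤ C' * lam := by positivity
  have b3 : 0 ≤ C₀ * τ := by positivity
  have b4 : 0 ≤ C₀ * C' * lam := by positivity
  have h2 := hc ((2 * M.wmax + 2 * C₀) * τ + (C' + C₀ * C') * lam) (C' * (1 + n))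
    (2 * τ + C' * lam) F (by positivity) (by positivity) (by nlinarith) fun g hg =>
      M.Box_mono (by nlinarith) (by positivity) le_rfl le_rfl (hb n τ g hτ (hF g hg))
  have h3 := M.Phi_le_add (r := 0) (r' := fun _ => (2 * M.wmax + 2 * C₀) * τ + (C' + C₀ * C') * lam)
    (t := (2 * M.wmax + 2 * C₀) * τ + (C' + C₀ * C') * lam) (by positivity) (fun i _ => by simp)
  rw [M.vol_Phi_zero] at h3
  have h4 : C₀ * Real.log (2 + C' * (1 + n)) ≤ C₀ * ((4 * C' + 1) * lam) := by gcongr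
  have h6 := mul_le_mul_of_nonneg_right hD hl0
  refine h2.trans (le_trans ?_ (mul_le_mul_of_nonneg_right h5 (Real.exp_pos _).le))
  rw [← Real.exp_add]
  exact Real.exp_le_exp.2 (by nlinarith)

end Vale.Agent.P188.Geo
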