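import Vale.Agent.P188.F.ADefs

/-! Part F: Folner sets from polynomial growth of neighbourhoods.
Plan.  Given `k, θ` choose `m` with `C (k m + 1)^D < (1 + θ)^m` (`poly_lt_pow` with
`C * (k+1)^D`), take `F, F'` for `k * m`.  Put `F j = {g * b | g ∈ F, wlen b ≤ k j}` (finite:
inside `F'` for `j ≤ m`; e.g. `F'.filter`), increasing, `F ⊆ F 0`, `F m ⊆ F'`.  If
`card (F (j+1)) > (1 + θ) card (F j)` for all `j < m` then `card F' ≥ (1+θ)^m card F`, absurd.
For the good `j`: `g ↦ g * s` injects `{g ∈ F j | g s ∉ F j}` into `F (j+1) \ F j`. -/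

namespace Vale.Agent.P188

variable {H : Type*} [Group H]

theorem SubExp.amen {S : Finset H} (hS : Subgroup.closure (S : Set H) = ⊤)
    (h : SubExp (S : Set H)) : Amen (S : Set H) := by
  classical
  obtain ⟨C, D, h⟩ := h
  intro k θ hθ
  obtain ⟨m, hm⟩ := (poly_lt_pow (|C| * ((k : ℝ) + 1) ^ D) D (a := 1 + θ) (by linarith)).exists
  obtain ⟨F, F', hne, h1, h2⟩ := h (k * m)
  let G : ℕ → Finset H := fun j =>
    F'.filter fun x => ∃ g ∈ F, ∃ b, wlen (S : Set H) b ≤ k * j ∧ x = g * b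
  have hF : ∀ j, F ⊆ G j := fun j g hg => Finset.mem_filter.2
    ⟨by simpa using h1 g hg 1 (by simp [wlen_one]), g, hg, 1, by simp [wlen_one], by simp⟩
  have hG : ∀ j, G j ⊆ G (j + 1) := fun j x hx => by
    obtain ⟨h3, g, hg, b, hb, rfl⟩ := Finset.mem_filter.1 hx
    exact Finset.mem_filter.2 ⟨h3, g, hg, b, hb.trans (Nat.mul_le_mul_left _ j.le_succ), rfl⟩
  by_contra hcon
  push Not at hcon
  have key : ∀ j ≤ m, (1 + θ) ^ j * F.card ≤ (G j).card := by
    intro j
    induction j with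
    | zero => intro _; simpa using Finset.card_le_card (hF 0)
    | succ j ih =>
      intro hj
      obtain ⟨s, hs, hlt⟩ := hcon (G j) (hne.mono (hF j))
      have h3 : ({g | g ∈ G j ∧ g * s ∉ G j} : Set H).ncard ≤
          ((G (j + 1) \ G j : Finset H) : Set H).ncard := by
        refine Set.ncard_le_ncard_of_injOn (· * s) (fun x hx => ?_)
          (fun _ _ _ _ h => mul_right_cancel h) (Finset.finite_toSet _)
        obtain ⟨-, g, hg, b, hb, rfl⟩ := Finset.mem_filter.1 hx.1
        have h4 : wlen (S : Set H) (b * s) ≤ k * (j + 1) :=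
          (wlen_mul hS b s).trans (by rw [Nat.mul_succ]; omega)
        refine Finset.mem_coe.2 (Finset.mem_sdiff.2 ⟨Finset.mem_filter.2 ⟨?_, g, hg, b * s, h4,
          mul_assoc _ _ _⟩, hx.2⟩)
        show g * b * s ∈ F'
        rw [mul_assoc]
        exact h1 g hg _ (h4.trans (Nat.mul_le_mul_left _ hj))
      rw [Set.ncard_coe_finset] at h3
      have h4 : (((G (j + 1) \ G j).card : ℝ)) + (G j).card = (G (j + 1)).card := by
        exact_mod_cast Finset.card_sdiff_add_card_eq_card (hG j)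
      have h5 : (({g | g ∈ G j ∧ g * s ∉ G j} : Set H).ncard : ℝ) ≤ (G (j + 1) \ G j).card := by
        exact_mod_cast h3
      have h6 := mul_le_mul_of_nonneg_left (ih (Nat.le_of_succ_le hj)) (by linarith : 0 ≤ 1 + θ)
      rw [pow_succ]
      linarith
  have h3 : ((G m).card : ℝ) ≤ F'.card := by
    exact_mod_cast Finset.card_le_card (Finset.filter_subset _ _)
  have h4 : (0 : ℝ) < F.card := by exact_mod_cast hne.card_pos
  have h5 : C * (((k * m : ℕ) : ℝ) + 1) ^ D ≤ |C| * ((k : ℝ) + 1) ^ D * ((m : ℝ) + 1) ^ D := by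
    rw [mul_assoc, ← mul_pow]
    refine mul_le_mul (le_abs_self C) (pow_le_pow_left₀ (by positivity) ?_ _) (by positivity)
      (abs_nonneg C)
    push_cast
    nlinarith [Nat.cast_nonneg (α := ℝ) k, Nat.cast_nonneg (α := ℝ) m]
  have h6 := mul_lt_mul_of_pos_right (h5.trans_lt hm) h4
  linarith [key m le_rfl]

end Vale.Agent.P188
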