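import Vale.Agent.P188.F.ADefs

/-! Part F: averaging a coarse cocycle to a homomorphism.
Plan.  `F k` from `Amen` with `k`, `θ = 1/(k+1)`; `a k s = (card (F k))⁻¹ • ∑ g ∈ F k, (c (g s) - c g)`
lies in `closedBall (c s) t` whenever `t` bounds the defect; the ball is compact, so along
`hyperfilter ℕ` (`≤ cofinite = atTop`) `a k s → h s` (`IsCompact.ultrafilter_le_nhds`), and
`h s ∈ closedBall (c s) t` for each such `t` (closed).  With `f g = c (g t) - c g`, `‖f‖ ≤ B`:
`a k (s t) - a k s - a k t = (card F)⁻¹ • (∑ g ∈ F, f (g s) - ∑ g ∈ F, f g)`, and the two sums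
agree on `F s ∩ F`; the rest has at most `θ card F` terms on each side
(`card (F \ F s) = card (F s \ F)`), so the norm is `≤ 2 θ B → 0`. -/

namespace Vale.Agent.P188

variable {H : Type*} [Group H] {V : Type*} [NormedAddCommGroup V] [NormedSpace ℝ V]
  [FiniteDimensional ℝ V]

omit [NormedSpace ℝ V] [FiniteDimensional ℝ V] in
theorem Mean_shift (F : Finset H) (s : H) (f : H → V) {B : ℝ} (hB : ∀ g, ‖f g‖ ≤ B) :
    ‖∑ g ∈ F, f (g * s) - ∑ g ∈ F, f g‖ ≤
      2 * B * (({g | g ∈ F ∧ g * s ∉ F} : Set H).ncard : ℝ) := by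
  classical
  have hn : ({g | g ∈ F ∧ g * s ∉ F} : Set H).ncard = (F.filter fun g => ¬ g * s ∈ F).card := by
    rw [← Set.ncard_coe_finset, Finset.coe_filter]
  set A := F.filter fun g => g * s ∈ F
  have hi : Set.InjOn (fun g => g * s) A := fun _ _ _ _ h => mul_right_cancel h
  have hs : A.image (fun g => g * s) ⊆ F := fun x hx => by
    obtain ⟨g, hg, rfl⟩ := Finset.mem_image.1 hx
    exact (Finset.mem_filter.1 hg).2
  have hc : (F \ A.image fun g => g * s).card = (F.filter fun g => ¬ g * s ∈ F).card := by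
    have := Finset.card_filter_add_card_filter_not (s := F) fun g => g * s ∈ F
    rw [Finset.card_sdiff_of_subset hs, Finset.card_image_of_injOn hi]
    simp only [A]
    omega
  have key : ∀ (T : Finset H) (u : H → H), ‖∑ g ∈ T, f (u g)‖ ≤ T.card * B := fun T u =>
    (norm_sum_le _ _).trans
      ((Finset.sum_le_card_nsmul _ _ _ fun g _ => hB (u g)).trans (nsmul_eq_mul _ _).le)
  rw [← Finset.sum_filter_add_sum_filter_not F (fun g => g * s ∈ F), ← Finset.sum_sdiff hs,
    Finset.sum_image hi, add_comm, add_sub_add_right_eq_sub, hn]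
  refine (norm_sub_le _ _).trans ?_
  have h1 := key (F.filter fun g => ¬ g * s ∈ F) fun g => g * s
  have h2 := key (F \ A.image fun g => g * s) id
  rw [hc] at h2
  simp only [id] at h2
  linarith

theorem Amen.mean {S : Set H} (hA : Amen S) (c : H → V)
    (hc : ∀ s, ∃ t : ℝ, ∀ g, ‖c (g * s) - c g - c s‖ ≤ t) :
    ∃ h : H → V, IsH h ∧ ∀ s (t : ℝ), (∀ g, ‖c (g * s) - c g - c s‖ ≤ t) → ‖h s - c s‖ ≤ t := by
  choose F hF0 hF using fun k : ℕ => hA k (1 / ((k : ℝ) + 1)) Nat.one_div_pos_of_nat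
  have hp : ∀ k, (0 : ℝ) < (F k).card := fun k => Nat.cast_pos.2 (hF0 k).card_pos
  let a : ℕ → H → V := fun k s => ((F k).card : ℝ)⁻¹ • ∑ g ∈ F k, (c (g * s) - c g)
  have ha : ∀ s (t : ℝ), (∀ g, ‖c (g * s) - c g - c s‖ ≤ t) →
      ∀ k, a k s ∈ Metric.closedBall (c s) t := by
    intro s t ht k
    have e : a k s - c s = ((F k).card : ℝ)⁻¹ • ∑ g ∈ F k, (c (g * s) - c g - c s) := by
      rw [Finset.sum_sub_distrib (f := fun g => c (g * s) - c g), smul_sub, Finset.sum_const,
        ← Nat.cast_smul_eq_nsmul ℝ, inv_smul_smul₀ (hp k).ne']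
    rw [mem_closedBall_iff_norm, e, norm_smul, Real.norm_of_nonneg (by positivity),
      inv_mul_le_iff₀ (hp k)]
    exact (norm_sum_le _ _).trans
      ((Finset.sum_le_card_nsmul _ _ _ fun g _ => ht g).trans (nsmul_eq_mul _ _).le)
  have hl : ∀ s, ∃ y, Filter.Tendsto (fun k => a k s) (Filter.hyperfilter ℕ) (nhds y) := by
    intro s
    obtain ⟨t, ht⟩ := hc s
    obtain ⟨y, -, hy⟩ := (isCompact_closedBall (c s) t).ultrafilter_le_nhds
      ((Filter.hyperfilter ℕ).map fun k => a k s)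
      (Filter.tendsto_principal.2 (Filter.Eventually.of_forall (ha s t ht)))
    exact ⟨y, hy⟩
  choose h hh using hl
  refine ⟨h, fun s t => ?_, fun s t ht => mem_closedBall_iff_norm.1
    (Metric.isClosed_closedBall.mem_of_tendsto (hh s) (Filter.Eventually.of_forall (ha s t ht)))⟩
  obtain ⟨B, hB⟩ := hc t
  have hB' : ∀ g, ‖c (g * t) - c g‖ ≤ B + ‖c t‖ := fun g => by
    linarith [hB g, norm_le_norm_sub_add (c (g * t) - c g) (c t)]
  have h1 := ((hh (s * t)).sub (hh s)).sub (hh t)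
  have h2 : Filter.Tendsto (fun k => a k (s * t) - a k s - a k t) Filter.atTop (nhds 0) := by
    have h3 := (tendsto_one_div_add_atTop_nhds_zero_nat (𝕜 := ℝ)).const_mul (2 * (B + ‖c t‖))
    rw [mul_zero] at h3
    refine squeeze_zero_norm' ?_ h3
    filter_upwards [Filter.eventually_ge_atTop (wlen S s)] with k hk
    have e : a k (s * t) - a k s - a k t = ((F k).card : ℝ)⁻¹ •
        (∑ g ∈ F k, (c (g * s * t) - c (g * s)) - ∑ g ∈ F k, (c (g * t) - c g)) := by
      simp only [a, ← smul_sub, ← Finset.sum_sub_distrib, mul_assoc]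
      congr 2
      ext g
      abel
    rw [e, norm_smul, Real.norm_of_nonneg (by positivity), inv_mul_le_iff₀ (hp k)]
    refine (Mean_shift (F k) s (fun g => c (g * t) - c g) hB').trans ?_
    have h4 : 0 ≤ 2 * (B + ‖c t‖) := by linarith [(norm_nonneg _).trans (hB' 1)]
    exact (mul_le_mul_of_nonneg_left (hF k s hk) h4).trans (le_of_eq (by ring))
  have h3 := tendsto_nhds_unique h1
    (h2.mono_left (Filter.hyperfilter_le_cofinite.trans Nat.cofinite_eq_atTop.le))
  rwa [sub_sub, sub_eq_zero] at h3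

end Vale.Agent.P188
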