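import Vale.Agent.P188.F.GDefs

/-! Part F: low paths.
Plan.  `path_G`: `g = x * ζ` (`nf_of_ln` with `ℓ = ln g`), `J = ⌈‖x‖ + ‖ζ‖⌉₊ + 1`,
`p j = (j/J) • x` for `j ≤ J`, `p (J + j) = x * ((j/J) • ζ)`, `n = 2 J`.  Steps are `(1/J) • x`,
`(1/J) • ζ` (`smul_mul_smul`, `inv_eq_neg`; `ln_le_one`); `t • x ∈ K`, `t • ζ ∈ Z` for `|t| ≤ 1`
(`SC.smul_mem`, `K_isLB`, `Z_isLB`), so `ln_K` (`C₀ = 1`), `ln_Z`, `ln_mul` bound the lengths;
`A (t • x) = 0`, `A (x * (t • ζ)) = t • A g`.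
`paths`: apply `path_G` to `α y`; choose `g j` with `wdist (p j) (α (g j)) ≤ C`, overriding
`g 0 = 1`, `g n = y` (if `n = 0` then `α y = 1`: state `path_G` with `0 < n`).  Steps:
`wdist (g j) (g (j+1)) ≤ K (1 + 3 C)`.  Heights: `‖h (g j)‖ ≤ ‖A (p j)‖ + CA C + ε' ln (α (g j)) + Cε'`,
`‖A (α y)‖ ≤ ‖h y‖ + ε' ln (α y) + Cε'`, `ln (α y) ≤ K wlen y + C` (`α 1 = 1`). -/

namespace Vale.Agent.P188.Geo
variable (M : Geo) {H : Type*} [Group H] {S : Finset H} {K C : ℝ} {α : H → M.G} {h : H → M.V}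

theorem path_step {x : M.G} (hx : M.A x = 0 ∨ x ∈ M.u0) (s t : ℝ) :
    (s • x)⁻¹ * (t • x) = (t - s) • x := by
  rw [inv_mul_eq_iff_eq_mul, M.smul_mul_smul hx, add_sub_cancel]

theorem path_G : ∃ C : ℝ, 1 ≤ C ∧ ∀ g : M.G, ∃ (n : ℕ) (p : ℕ → M.G), 0 < n ∧ p 0 = 1 ∧ p n = g ∧
    (∀ j < n, M.ln ((p j)⁻¹ * p (j + 1)) ≤ 1) ∧
      ∀ j ≤ n, M.ln (p j) ≤ C * (M.ln g + 1) ∧ ‖M.A (p j)‖ ≤ ‖M.A g‖ := by
  obtain ⟨C₁, hC₁, hnf⟩ := M.nf_of_ln
  obtain ⟨C₂, hC₂, hK⟩ := M.ln_K 1 zero_le_one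
  obtain ⟨C₃, hC₃, hZ⟩ := M.ln_Z
  refine ⟨(C₂ + C₃) * (C₁ + 1), by nlinarith, fun g => ?_⟩
  obtain ⟨x, hx, ζ, hζ, rfl⟩ := hnf g _ le_rfl
  have hxA : M.A x = 0 := M.A_e (M.K_sub_e _ hx)
  have hζu : ζ ∈ M.u0 := M.Z_sub_u0 _ hζ
  set J : ℕ := ⌈‖x‖ + ‖ζ‖⌉₊ + 1 with hJ
  have hJ0 : (0 : ℝ) < J := by positivity
  have hJ1 : ‖x‖ + ‖ζ‖ ≤ J := (Nat.le_ceil _).trans (by rw [hJ]; push_cast; linarith)
  have hsm : ∀ y : M.G, ‖y‖ ≤ J → M.ln ((1 / (J : ℝ)) • y) ≤ 1 := fun y hy => by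
    refine M.ln_le_one ?_
    rw [norm_smul, Real.norm_eq_abs, abs_of_pos (by positivity), one_div, inv_mul_le_iff₀ hJ0]
    linarith
  refine ⟨J + J, fun j => (((min j J : ℕ) : ℝ) / J) • x * ((((j - J : ℕ) : ℝ) / J) • ζ),
    by omega, ?_, ?_, fun j hj => ?_, fun j hj => ?_⟩
  · simp only [Nat.zero_min, Nat.zero_sub, Nat.cast_zero, zero_div, zero_smul]
    exact mul_one (1 : M.G)
  · simp [hJ0.ne']
  · rcases lt_or_ge j J with h1 | h1
    · have e0 : (0 : M.G) = 1 := rfl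
      simp only [min_eq_left h1.le, min_eq_left (Nat.succ_le_of_lt h1),
        Nat.sub_eq_zero_of_le h1.le, Nat.sub_eq_zero_of_le (Nat.succ_le_of_lt h1), Nat.cast_zero,
        zero_div, zero_smul, e0, mul_one]
      rw [M.path_step (Or.inl hxA), ← sub_div]
      simpa using hsm x (by linarith [norm_nonneg ζ])
    · simp only [min_eq_right h1, min_eq_right (h1.trans (Nat.le_succ j)), mul_inv_rev, mul_assoc,
        inv_mul_cancel_left]
      rw [M.path_step (Or.inr hζu), ← sub_div, Nat.succ_sub h1]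
      simpa using hsm ζ (by linarith [norm_nonneg x])
  · have a0 : (0 : ℝ) ≤ ((min j J : ℕ) : ℝ) / J := by positivity
    have a1 : ((min j J : ℕ) : ℝ) / J ≤ 1 :=
      (div_le_one hJ0).2 (by exact_mod_cast min_le_right _ _)
    have b0 : (0 : ℝ) ≤ ((j - J : ℕ) : ℝ) / J := by positivity
    have b1 : ((j - J : ℕ) : ℝ) / J ≤ 1 :=
      (div_le_one hJ0).2 (by exact_mod_cast (by omega : j - J ≤ J))
    have l0 := M.ln_nonneg (x * ζ)
    have r0 : 0 ≤ C₁ * (M.ln (x * ζ) + 1) := by positivity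
    have h1 := hK _ _ r0 (fun _ _ => le_rfl) _
      (M.lb_one ((M.K_isLB _).sc.smul_mem hx ((abs_of_nonneg a0).trans_le a1)))
    have h2 := hZ _ r0 _ ((M.Z_isLB _).sc.smul_mem hζ ((abs_of_nonneg b0).trans_le b1))
    constructor
    · refine (M.ln_mul _ _).trans ?_
      nlinarith
    · simp only [A_mul, map_smul, hxA, smul_zero, zero_add, norm_smul, Real.norm_eq_abs,
        abs_of_nonneg b0]
      exact mul_le_of_le_one_left (norm_nonneg _) b1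

theorem paths (hα : IsQI (S : Set H) M.Q K C α) (h1 : α 1 = 1) (hn : M.Near1 α h) :
    Paths (S : Set H) h := by
  classical
  obtain ⟨Cp, hCp, hp⟩ := M.path_G
  obtain ⟨CA, hCA, hA⟩ := M.norm_ah_le
  obtain ⟨hK, hC, hq, hd⟩ := hα
  choose q hq' using hd
  refine ⟨⌈K * (3 * C + 1)⌉₊, fun ε hε => ?_⟩
  set ε' := ε / ((1 + Cp) * K) with hε'
  have e0 : 0 < ε' := by positivity
  have e1 : ε' * ((1 + Cp) * K) = ε := by rw [hε']; field_simp
  obtain ⟨C', hC'⟩ := hn ε' e0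
  refine ⟨ε' * ((1 + Cp) * C + Cp + C) + 2 * C' + CA * C, fun y => ?_⟩
  obtain ⟨n, p, n0, p0, pn, hs, hb⟩ := hp (α y)
  set g : ℕ → H := fun j => if j = 0 then 1 else if j = n then y else q (p j) with hg
  have hc : ∀ j, M.ln ((p j)⁻¹ * α (g j)) ≤ C := fun j => by
    by_cases j0 : j = 0
    · simp [hg, j0, p0, h1, ln_one, hC]
    · by_cases jn : j = n
      · simp [hg, jn, pn, n0.ne', ln_one, hC]
      · simpa [hg, j0, jn, ← wdist_eq] using hq' (p j)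
  refine ⟨n, g, by simp [hg], by simp [hg, n0.ne'], fun j hj => ?_, fun j hj => ?_⟩
  · have h2 : M.ln ((α (g j))⁻¹ * α (g (j + 1))) ≤ 2 * C + 1 := by
      have e : (α (g j))⁻¹ * α (g (j + 1)) = ((p j)⁻¹ * α (g j))⁻¹ * ((p j)⁻¹ * p (j + 1)) *
          ((p (j + 1))⁻¹ * α (g (j + 1))) := by group
      rw [e]
      have := M.ln_mul (((p j)⁻¹ * α (g j))⁻¹ * ((p j)⁻¹ * p (j + 1)))
        ((p (j + 1))⁻¹ * α (g (j + 1)))
      have := M.ln_mul ((p j)⁻¹ * α (g j))⁻¹ ((p j)⁻¹ * p (j + 1))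
      rw [M.ln_inv] at this
      linarith [hc j, hc (j + 1), hs j hj]
    have h3 := (hq (g j) (g (j + 1))).1
    rw [wdist_eq] at h3
    have h4 : K⁻¹ * wdist (S : Set H) (g j) (g (j + 1)) ≤ 3 * C + 1 := by linarith
    rw [inv_mul_le_iff₀ (by linarith)] at h4
    exact Nat.cast_le.1 (h4.trans (Nat.le_ceil _))
  · obtain ⟨b1, b2⟩ := hb j hj
    have e : α (g j) = p j * ((p j)⁻¹ * α (g j)) := by group
    have h2 : M.ln (α (g j)) ≤ Cp * (M.ln (α y) + 1) + C := by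
      have := M.ln_mul (p j) ((p j)⁻¹ * α (g j))
      rw [← e] at this
      linarith [hc j]
    have h3 : ‖M.A (α (g j))‖ ≤ ‖M.A (α y)‖ + CA * C := by
      rw [e, A_mul]
      refine (norm_add_le _ _).trans (add_le_add b2 ((hA _).2.trans ?_))
      gcongr
      exact hc j
    have h4 : M.ln (α y) ≤ K * wlen (S : Set H) y + C := by
      have := (hq 1 y).2
      rw [wdist_eq, h1] at this
      simpa [wdist] using this
    have h5 := norm_le_insert' (h (g j)) (M.A (α (g j)))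
    have h6 := norm_le_insert (h y) (M.A (α y))
    have h7 := hC' (g j)
    have h8 := hC' y
    have h9 : ε' * M.ln (α (g j)) + ε' * M.ln (α y) ≤
        ε * wlen (S : Set H) y + ε' * ((1 + Cp) * C + Cp + C) := by
      rw [← e1]
      have : M.ln (α (g j)) + M.ln (α y) ≤
          (1 + Cp) * K * wlen (S : Set H) y + ((1 + Cp) * C + Cp + C) := by nlinarith
      nlinarith
    linarith

end Vale.Agent.P188.Geo
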