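import Vale.Agent.P188.F.Phi

/-! Part F: the finite-index subgroup acting without rotation.
Plan.  `φ` from `exists_phi`, `w g ∈ W` from `t1_exact` (choice).  Let `c x = A (α x)` and
`Rel g w := ∀ ε > 0, ∃ C, ∀ x y, ‖c (g y) - c (g x) - w (c y - c x)‖ ≤ ε * wdist S x y + C`.
`Rel g (w g)` (take `p = α x`, `q = α y`; `norm_ah_le` for the errors `≤ CA * D`,
`ln ((α x)⁻¹ α y) ≤ K wdist + C`).  `Rel g w → Rel g' w' → Rel (g g') (w * w')` (`wdist_mul_left`,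
`w` is an isometry).  `Rel g w → Rel g w' → w = w'`: for `v`, `t > 0` choose `y` with `α y` within
`C` of `α 1 * ι (t • v)` (`exists_sec`, `ln_tame`), so `‖t • (w v - w' v)‖ ≤ 2 ε K' t + const`;
let `t → ∞`, then `ε → 0`.  So `g ↦ w g` is a `MonoidHom` (`MonoidHom.mk'`) with finite range
(`W_finite`); its kernel has finite index (`Subgroup.finiteIndex_ker`).  `T2Stmt` gives the second
half of `Rg`; take `D = max ..` (`len_log` for positivity of the logarithm). -/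

namespace Vale.Agent.P188.Geo
variable (M : Geo) {H : Type*} [Group H] {S : Finset H} {K C : ℝ} {α : H → M.G}

/-- Left translation by `g` acts on heights like `w`, up to sublinear errors. -/
def RedRel (S : Finset H) (α : H → M.G) (g : H) (w : M.V ≃ₗᵢ[ℝ] M.V) : Prop :=
  ∀ ε : ℝ, 0 < ε → ∃ B : ℝ, ∀ x y, ‖M.A (α (g * y)) - M.A (α (g * x)) -
    w (M.A (α y) - M.A (α x))‖ ≤ ε * wdist (S : Set H) x y + B

theorem red_A : ∃ N : ℝ, 1 ≤ N ∧ ∀ (a b : M.G) (D : ℝ), M.ln (a⁻¹ * b) ≤ D →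
    ‖M.A b - M.A a‖ ≤ N * D := by
  obtain ⟨N, h1, hN⟩ := M.norm_ah_le
  refine ⟨N, h1, fun a b D h => ?_⟩
  have h2 := (hN (a⁻¹ * b)).2
  rw [M.A_mul, M.A_inv, neg_add_eq_sub] at h2
  exact h2.trans (mul_le_mul_of_nonneg_left h (by linarith))

theorem red_rel (hα : IsQI (S : Set H) M.Q K C α) {g : H} {w : M.V ≃ₗᵢ[ℝ] M.V} {φ : M.G → M.G}
    {Cf : ℝ → ℝ} {D : ℝ} (h1 : ∀ ε : ℝ, 0 < ε → ∀ p q,
      ‖M.A (φ q) - M.A (φ p) - w (M.A q - M.A p)‖ ≤ ε * M.ln (p⁻¹ * q) + Cf ε)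
    (h2 : ∀ x, M.ln ((φ (α x))⁻¹ * α (g * x)) ≤ D) : M.RedRel S α g w := by
  intro ε hε
  obtain ⟨N, -, hN⟩ := M.red_A
  have hK : 0 < K := lt_of_lt_of_le one_pos hα.1
  refine ⟨ε / K * C + Cf (ε / K) + 2 * (N * D), fun x y => ?_⟩
  have a1 := h1 (ε / K) (by positivity) (α x) (α y)
  have a2 := mul_le_mul_of_nonneg_left (hα.2.2.1 x y).2 (show 0 ≤ ε / K by positivity)
  rw [M.wdist_eq, mul_add, ← mul_assoc, div_mul_cancel₀ _ hK.ne'] at a2
  have a3 := hN _ _ _ (h2 x)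
  have a4 := hN _ _ _ (h2 y)
  have a5 := norm_add_le (M.A (φ (α y)) - M.A (φ (α x)) - w (M.A (α y) - M.A (α x)))
    ((M.A (α (g * y)) - M.A (φ (α y))) - (M.A (α (g * x)) - M.A (φ (α x))))
  have a6 := norm_sub_le (M.A (α (g * y)) - M.A (φ (α y))) (M.A (α (g * x)) - M.A (φ (α x)))
  rw [show ∀ a b c d e : M.V, a - b - c + (d - a - (e - b)) = d - e - c from
    fun _ _ _ _ _ => by abel] at a5
  linarith

theorem red_mul {g g' : H} {w w' : M.V ≃ₗᵢ[ℝ] M.V} (h : M.RedRel S α g w)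
    (h' : M.RedRel S α g' w') : M.RedRel S α (g * g') (w * w') := by
  intro ε hε
  obtain ⟨B, hB⟩ := h _ (half_pos hε)
  obtain ⟨B', hB'⟩ := h' _ (half_pos hε)
  refine ⟨B + B', fun x y => ?_⟩
  have a1 := hB (g' * x) (g' * y)
  have a2 := hB' x y
  rw [wdist_mul_left] at a1
  rw [← w.norm_map, map_sub w] at a2
  have a3 := (norm_add_le _ _).trans (add_le_add a1 a2)
  rw [sub_add_sub_cancel] at a3
  rw [mul_assoc, mul_assoc, LinearIsometryEquiv.coe_mul, Function.comp_apply]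
  linarith

theorem red_uniq (hα : IsQI (S : Set H) M.Q K C α) {g : H} {w w' : M.V ≃ₗᵢ[ℝ] M.V}
    (h : M.RedRel S α g w) (h' : M.RedRel S α g w') : w = w' := by
  obtain ⟨N, -, hN⟩ := M.red_A
  obtain ⟨ι, hι, hιA⟩ := M.exists_sec
  have hK : 0 < K := lt_of_lt_of_le one_pos hα.1
  refine LinearIsometryEquiv.ext fun v => sub_eq_zero.1 (norm_le_zero_iff.1 (not_lt.1 fun ha => ?_))
  set a := ‖w v - w' v‖ with ha'
  set ε : ℝ := a / (4 * (K * (‖ι v‖ + 1))) with hε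
  have hε0 : 0 < ε := by positivity
  have hε1 : 4 * (K * (‖ι v‖ + 1)) * ε = a := by rw [hε]; field_simp
  obtain ⟨B, hB⟩ := h ε hε0
  obtain ⟨B', hB'⟩ := h' ε hε0
  have key : ∀ t : ℝ, 0 < t → t * a ≤ t * (a / 2) +
      (2 * (N * C) + 2 * (ε * (K * (1 + 2 * C))) + B + B') := by
    intro t ht
    obtain ⟨y, hy⟩ := hα.2.2.2 (α 1 * ι (t • v))
    rw [M.wdist_eq] at hy
    have a1 := hN _ _ _ hy
    rw [M.A_mul, hιA] at a1
    have a2 := (hα.2.2.1 1 y).1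
    rw [M.wdist_eq] at a2
    have a3 := M.ln_mul (ι (t • v)) ((α 1 * ι (t • v))⁻¹ * α y)
    rw [show ι (t • v) * ((α 1 * ι (t • v))⁻¹ * α y) = (α 1)⁻¹ * α y by group] at a3
    have a4 := M.ln_tame (Or.inr (hι (t • v)))
    rw [map_smul, norm_smul, Real.norm_of_nonneg ht.le, ← map_smul] at a4
    have a5 : wdist (S : Set H) 1 y ≤ K * (t * ‖ι v‖ + 1 + 2 * C) := by
      rw [← inv_mul_le_iff₀ hK]
      linarith
    have a6 := mul_le_mul_of_nonneg_left a5 hε0.le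
    have a7 := (norm_sub_le _ _).trans (add_le_add (hB' 1 y) (hB 1 y))
    rw [sub_sub_sub_cancel_left] at a7
    have e : M.A (α y) - M.A (α 1) = t • v + (M.A (α y) - (M.A (α 1) + t • v)) := by abel
    rw [e] at a7
    generalize M.A (α y) - (M.A (α 1) + t • v) = u at a1 a7
    have a8 := norm_sub_le (w (t • v + u) - w' (t • v + u)) (w u - w' u)
    have a9 := norm_sub_le (w u) (w' u)
    rw [w.norm_map, w'.norm_map] at a9
    have e2 : w (t • v + u) - w' (t • v + u) - (w u - w' u) = t • (w v - w' v) := by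
      rw [map_add, map_add, map_smul, map_smul, smul_sub]
      abel
    rw [e2, norm_smul, Real.norm_of_nonneg ht.le, ← ha'] at a8
    have b1 : 0 ≤ t * K * ε := by positivity
    rw [← hε1] at a8 ⊢
    linarith
  generalize 2 * (N * C) + 2 * (ε * (K * (1 + 2 * C))) + B + B' = E at key
  have h1 := key ((2 * |E| + 1) / a) (by positivity)
  rw [div_mul_cancel₀ _ ha.ne', ← mul_div_assoc, div_mul_cancel₀ _ ha.ne'] at h1
  linarith [le_abs_self E]

theorem exists_rig (h1 : M.T1Stmt) (h2 : M.T2Stmt) (hS : Subgroup.closure (S : Set H) = ⊤)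
    (hα : IsQI (S : Set H) M.Q K C α) :
    ∃ H₀ : Subgroup H, H₀.FiniteIndex ∧ M.Rig (fun x : H₀ => α x) := by
  obtain ⟨K', C', D, φ, hφ⟩ := M.exists_phi hS hα
  obtain ⟨Cf, hCf⟩ := M.t1_exact h1 K' C'
  obtain ⟨C₂, hC₂⟩ := h2 K' C'
  choose w hw hw' using fun g => hCf (φ g) (hφ g).1
  have hr : ∀ g, M.RedRel S α g (w g) := fun g => M.red_rel hα (hw' g) (hφ g).2
  let F : H →* (M.V ≃ₗᵢ[ℝ] M.V) :=
    MonoidHom.mk' w fun g g' => M.red_uniq hα (hr _) (M.red_mul (hr g) (hr g'))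
  have : Finite F.range := (M.W_finite.subset (by
    rintro _ ⟨g, rfl⟩
    exact hw g) : (F.range : Set (M.V ≃ₗᵢ[ℝ] M.V)).Finite)
  refine ⟨F.ker, Subgroup.finiteIndex_ker F, Cf, max (max C₂ D) 0, le_max_right _ _, fun g =>
    ⟨φ g, ⟨fun ε hε p q => ?_, fun p z hz hA => (hC₂ _ (hφ g).1 p z hz hA).trans ?_⟩, fun x =>
      ((hφ g).2 x).trans ((le_max_right _ _).trans (le_max_left _ _))⟩⟩
  · have h3 := hw' g ε hε p q
    rwa [show w g = 1 from g.2] at h3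
  · exact mul_le_mul_of_nonneg_right ((le_max_left _ _).trans (le_max_left _ _))
      (le_trans (by norm_num) (len_log (norm_nonneg z)))

end Vale.Agent.P188.Geo
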