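import Vale.Agent.P188.F.Alg
import Vale.Agent.P188.F.Fol
import Vale.Agent.P188.F.Mean
import Vale.Agent.P188.F.Red
import Vale.Agent.P188.F.Dfc
import Vale.Agent.P188.F.Few
import Vale.Agent.P188.F.Path

/-! Part F (sub-project): final algebra.  Plan: notes/P188_F.md. -/

namespace Vale.Agent.P188.Geo
variable (M : Geo)

theorem final_rig {H : Type*} [Group H] (S : Finset H) (hS : Subgroup.closure (S : Set H) = ⊤)
    {K C : ℝ} {α : H → M.G} (hα : IsQI (S : Set H) M.Q K C α) (h1 : α 1 = 1) (hr : M.Rig α) :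
    VirtPolycyclic H := by
  obtain ⟨h, hh, hb⟩ := ((M.subExp hS hα).amen hS).mean (fun g => M.A (α g)) fun s => by
    obtain ⟨C', hC'⟩ := M.defect_one hr h1 one_pos
    exact ⟨_, hC' s⟩
  refine alg_main hh hS (M.few hS hα h1 fun ε hε => ?_) (M.paths hα h1 fun ε hε => ?_)
  · obtain ⟨C', h0, hC'⟩ := M.defect_two hr h1 hε
    exact ⟨C', h0, fun s R ρ ℓ hR hρ hs => hb s _ (hC' s R ρ ℓ hR hρ hs)⟩
  · obtain ⟨C', hC'⟩ := M.defect_one hr h1 hε
    exact ⟨C', fun s => hb s _ (hC' s)⟩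

theorem final_algebra (h1 : M.T1Stmt) (h2 : M.T2Stmt) {H : Type*} [Group H] (S : Finset H)
    (hS : Subgroup.closure (S : Set H) = ⊤) {K C : ℝ} {α : H → M.G}
    (hα : IsQI (S : Set H) M.Q K C α) : VirtPolycyclic H := by
  have hα' := hα.mul_left (α 1)⁻¹
  obtain ⟨H₀, hf, hr⟩ := M.exists_rig h1 h2 hS hα'
  haveI : Group.FG H := Group.fg_iff.2 ⟨S, hS, S.finite_toSet⟩
  obtain ⟨S₀, hS₀⟩ := (Subgroup.fg_of_index_ne_zero H₀).out
  obtain ⟨K₀, C₀, h₀⟩ := isQI_subtype hS H₀ S₀ hS₀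
  exact VirtPolycyclic.of_finiteIndex H₀
    (M.final_rig S₀ hS₀ (h₀.comp M.closure_Q hα') (by simp) hr)

end Vale.Agent.P188.Geo
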