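import Vale.Agent.P188.QI0

/-! Part F: abstract definitions (a group `H`, an additive map `h : H → V`).  Plan: notes/P188_F.md. -/

namespace Vale.Agent.P188

variable {H : Type*} [Group H] {V : Type*} [NormedAddCommGroup V]

/-- `h` is a homomorphism to the additive group `V`. -/
def IsH (h : H → V) : Prop := ∀ x y, h (x * y) = h x + h y

/-- `y` is the end point of a walk from `1` with `n` steps of length at most `ℓ`, along which
`h` has norm at most `τ`. -/
def Walk (S : Set H) (h : H → V) (ℓ : ℕ) (τ : ℝ) (n : ℕ) (y : H) : Prop :=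
  ∃ g : ℕ → H, g 0 = 1 ∧ g n = y ∧ (∀ j < n, wlen S ((g j)⁻¹ * g (j + 1)) ≤ ℓ) ∧
    ∀ j ≤ n, ‖h (g j)‖ ≤ τ

/-- There are few end points of low walks. -/
def Few (S : Set H) (h : H → V) : Prop :=
  ∃ C₀ : ℝ, 0 < C₀ ∧ ∀ ℓ : ℕ, ∃ (C : ℝ) (D : ℕ), ∀ (n : ℕ) (τ : ℝ) (F : Finset H), 0 ≤ τ →
    (∀ y ∈ F, Walk S h ℓ τ n y) → (F.card : ℝ) ≤ C * ((n : ℝ) + 1) ^ D * Real.exp (C₀ * τ)

/-- Every point is the end point of a walk which is almost as low as the point. -/
def Paths (S : Set H) (h : H → V) : Prop :=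
  ∃ ℓ : ℕ, ∀ ε : ℝ, 0 < ε → ∃ C : ℝ, ∀ y, ∃ n, Walk S h ℓ (‖h y‖ + ε * wlen S y + C) n y

/-- Sets whose neighbourhoods grow polynomially. -/
def SubExp (S : Set H) : Prop :=
  ∃ (C : ℝ) (D : ℕ), ∀ m : ℕ, ∃ F F' : Finset H, F.Nonempty ∧
    (∀ g ∈ F, ∀ b, wlen S b ≤ m → g * b ∈ F') ∧ (F'.card : ℝ) ≤ C * ((m : ℝ) + 1) ^ D * F.card

/-- Right Folner sets. -/
def Amen (S : Set H) : Prop :=
  ∀ (k : ℕ) (θ : ℝ), 0 < θ → ∃ F : Finset H, F.Nonempty ∧ ∀ s, wlen S s ≤ k →
    (({g | g ∈ F ∧ g * s ∉ F} : Set H).ncard : ℝ) ≤ θ * F.card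

/-- Two of the words in `s` and `s * y` of the same length have the same product. -/
def Coll (s y : H) : Prop :=
  ∃ (n : ℕ) (e e' : Fin n → Bool), e ≠ e' ∧
    (List.ofFn fun i => s * (if e i then y else 1)).prod =
      (List.ofFn fun i => s * (if e' i then y else 1)).prod

variable {h : H → V}

theorem IsH.one (hh : IsH h) : h 1 = 0 := by
  have := hh 1 1
  rw [one_mul] at this
  exact left_eq_add.1 this

theorem IsH.inv (hh : IsH h) (x : H) : h x⁻¹ = -h x := by
  have := hh x x⁻¹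
  rw [mul_inv_cancel, hh.one] at this
  exact (neg_eq_of_add_eq_zero_right this.symm).symm

/-- The bundled homomorphism. -/
def IsH.hom (hh : IsH h) : H →* Multiplicative V :=
  MonoidHom.mk' (fun g => Multiplicative.ofAdd (h g)) fun x y => by rw [hh x y, ofAdd_add]

theorem IsH.hom_apply (hh : IsH h) (g : H) : hh.hom g = Multiplicative.ofAdd (h g) := rfl

theorem IsH.mem_ker (hh : IsH h) {g : H} : g ∈ hh.hom.ker ↔ h g = 0 := by
  rw [MonoidHom.mem_ker, hh.hom_apply, ofAdd_eq_one]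

theorem IsH.pow (hh : IsH h) (x : H) (n : ℕ) : h (x ^ n) = n • h x := by
  induction n with
  | zero => simp [hh.one]
  | succ n ih => rw [pow_succ, hh, ih, succ_nsmul]

theorem IsH.zpow (hh : IsH h) (x : H) (n : ℤ) : h (x ^ n) = n • h x := by
  obtain ⟨k, rfl | rfl⟩ := n.eq_nat_or_neg
  · rw [zpow_natCast, hh.pow, natCast_zsmul]
  · rw [zpow_neg, zpow_natCast, hh.inv, hh.pow, neg_smul, natCast_zsmul]

theorem IsH.prod (hh : IsH h) (l : List H) : h l.prod = (l.map h).sum := by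
  induction l with
  | nil => simp [hh.one]
  | cons a l ih => simp [hh a, ih]

theorem IsH.norm_le (hh : IsH h) {S : Finset H} (hS : Subgroup.closure (S : Set H) = ⊤) :
    ∃ L : ℝ, 1 ≤ L ∧ ∀ g, ‖h g‖ ≤ L * wlen (S : Set H) g := by
  refine ⟨1 + ∑ s ∈ S, ‖h s‖, le_add_of_nonneg_right (Finset.sum_nonneg fun _ _ => norm_nonneg _),
    fun g => ?_⟩
  obtain ⟨l, h1, h2, h3⟩ := wlen_spec hS g
  rw [← h1, ← h3]
  clear h1 h3
  induction l with
  | nil => simp [hh.one]
  | cons a l ih =>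
    have h4 := ih fun x hx => h2 x (List.mem_cons_of_mem _ hx)
    have h5 : ‖h a‖ ≤ ∑ s ∈ S, ‖h s‖ := by
      rcases h2 a (by simp) with h6 | h6
      · exact Finset.single_le_sum (f := fun s => ‖h s‖) (fun _ _ => norm_nonneg _) h6
      · have := Finset.single_le_sum (f := fun s => ‖h s‖) (fun _ _ => norm_nonneg _) h6
        simpa [hh.inv] using this
    rw [List.prod_cons, hh]
    have h7 := norm_add_le (h a) (h l.prod)
    simp only [List.length_cons, Nat.cast_add, Nat.cast_one]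
    nlinarith

theorem tele_take {G : Type*} [Group G] (p : ℕ → G) {n j : ℕ} (hj : j ≤ n) :
    (((List.range n).map fun i => (p i)⁻¹ * p (i + 1)).take j).prod = (p 0)⁻¹ * p j := by
  rw [← List.map_take, List.take_range, min_eq_left hj]
  clear hj
  induction j with
  | zero => simp
  | succ j ih => rw [List.range_succ, List.map_append, List.prod_append, ih]; simp

theorem tele_prod {G : Type*} [Group G] (p : ℕ → G) (n : ℕ) :
    ((List.range n).map fun i => (p i)⁻¹ * p (i + 1)).prod = (p 0)⁻¹ * p n := by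
  have := tele_take p (le_refl n)
  rwa [List.take_of_length_le (by simp)] at this

theorem Walk.mono {S : Set H} {ℓ ℓ' n : ℕ} {τ τ' : ℝ} {y : H} (hw : Walk S h ℓ τ n y)
    (h1 : ℓ ≤ ℓ') (h2 : τ ≤ τ') : Walk S h ℓ' τ' n y := by
  obtain ⟨g, h0, hn, hs, ht⟩ := hw
  exact ⟨g, h0, hn, fun j hj => (hs j hj).trans h1, fun j hj => (ht j hj).trans h2⟩

/-- The walk along the prefixes of a list. -/
theorem walk_of_list {S : Set H} {ℓ n : ℕ} {τ : ℝ} (l : List H) (hn : l.length ≤ n)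
    (h1 : ∀ b ∈ l, wlen S b ≤ ℓ) (h2 : ∀ j, ‖h (l.take j).prod‖ ≤ τ) : Walk S h ℓ τ n l.prod := by
  refine ⟨fun j => (l.take j).prod, by simp, by simp only [List.take_of_length_le hn], fun j _ => ?_,
    fun j _ => h2 j⟩
  by_cases hj : j < l.length
  · simp only [List.prod_take_succ l j hj, inv_mul_cancel_left]
    exact h1 _ (List.getElem_mem hj)
  · simp only [List.take_of_length_le (not_lt.1 hj),
      List.take_of_length_le ((not_lt.1 hj).trans (Nat.le_succ j)), inv_mul_cancel, wlen_one]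
    exact Nat.zero_le _

/-- Exponentials beat polynomials. -/
theorem poly_lt_pow (C : ℝ) (D : ℕ) {a : ℝ} (ha : 1 < a) :
    ∀ᶠ n : ℕ in Filter.atTop, C * ((n : ℝ) + 1) ^ D < a ^ n := by
  have h1 := tendsto_pow_const_div_const_pow_of_one_lt D ha
  have h2 : Filter.Tendsto (fun n : ℕ => ((n + 1 : ℕ) : ℝ) ^ D / a ^ (n + 1)) Filter.atTop (nhds 0) :=
    h1.comp (Filter.tendsto_add_atTop_nat 1)
  have h3 := h2.const_mul (C * a)
  rw [mul_zero] at h3
  filter_upwards [h3.eventually (gt_mem_nhds one_pos)] with n hn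
  have h4 : 0 < a ^ n := by positivity
  have h5 : C * a * (((n + 1 : ℕ) : ℝ) ^ D / a ^ (n + 1)) = C * ((n : ℝ) + 1) ^ D / a ^ n := by
    push_cast
    field_simp
    ring
  rwa [h5, div_lt_one h4] at hn

end Vale.Agent.P188
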