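import Vale.Agent.P188.F.ADefs
import Vale.Agent.P188.Gr.Milnor

/-! Part F: collisions and the descent of finite generation.
Plan.  `Few.coll`: `c = log 2 / (4 C₀)`.  If the `2 ^ n` products were distinct, they would form a
`Finset` of end points of walks (`walk_of_list`) with `n` steps of length `≤ wlen s + wlen y` and
heights `≤ 2 c n` (`IsH.prod`, or induction on initial segments), so
`2 ^ n ≤ C (n+1)^D exp (C₀ * (2 c n)) = C (n+1)^D (√2)^n`, against `poly_lt_pow`.
`desc_one`: `L = ⨆ y ∈ Y, closure (range fun a : ℤ => t^a * y * t^(-a))` is finitely generated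
(`milnor_fg`, `Subgroup.FG.sup`, Finset induction), `L ≤ J`, `L` is normalised by `t`, so every
element of `closure (insert t Y)` is `l * t ^ a` (closure induction); hence
`J = L ⊔ (J ⊓ zpowers t)`, and subgroups of `zpowers t` are cyclic
(`Subgroup.le_zpowers_iff` or `Subgroup.isCyclic_of_le`).
`desc`: Finset induction on `T`.  If `N ⊔ closure (insert t T)` is generated by a finite set `U`,
write each `u = y_u * w_u` with `y_u ∈ N`, `w_u ∈ closure (insert t T)` (`N` normal); put
`Y = {y_u} ∪ T`, `J = N ⊔ closure T` (normal since it contains all commutators). -/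

namespace Vale.Agent.P188

variable {H : Type*} [Group H] {V : Type*} [NormedAddCommGroup V] {h : H → V}

theorem desc_norm (hh : IsH h) {a : ℝ} (l : List H) (hl : ∀ b ∈ l, ‖h b‖ ≤ a) :
    ‖h l.prod‖ ≤ a * l.length := by
  induction l with
  | nil => simp [hh.one]
  | cons b l ih =>
    have h1 := ih fun x hx => hl x (List.mem_cons_of_mem _ hx)
    have h2 := hl b (by simp)
    rw [List.prod_cons, hh]
    have h3 := norm_add_le (h b) (h l.prod)
    simp only [List.length_cons, Nat.cast_add, Nat.cast_one]
    linarith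

theorem Few.coll {S : Finset H} (hS : Subgroup.closure (S : Set H) = ⊤) (hh : IsH h)
    (hf : Few (S : Set H) h) : ∃ c : ℝ, 0 < c ∧ ∀ s y, ‖h s‖ < c → ‖h y‖ < c → Coll s y := by
  classical
  obtain ⟨C₀, hC₀, hf⟩ := hf
  have hl : 0 < Real.log (3 / 2) := Real.log_pos (by norm_num)
  refine ⟨Real.log (3 / 2) / (2 * C₀), by positivity, fun s y hs hy => ?_⟩
  set c := Real.log (3 / 2) / (2 * C₀) with hc
  have hc0 : 0 < c := by positivity
  by_contra hcol
  unfold Coll at hcol
  push Not at hcol
  obtain ⟨C, D, hC⟩ := hf (wlen (S : Set H) s + wlen (S : Set H) y)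
  obtain ⟨n, hn⟩ := (poly_lt_pow C D (a := 4 / 3) (by norm_num)).exists
  have h1 := hC n (2 * c * n) (Finset.univ.image fun e : Fin n → Bool =>
    (List.ofFn fun i => s * (if e i then y else 1)).prod) (by positivity) (by
      intro z hz
      obtain ⟨e, -, rfl⟩ := Finset.mem_image.1 hz
      have h2 : ∀ b ∈ List.ofFn fun i => s * (if e i then y else 1), b = s * y ∨ b = s := by
        intro b hb
        obtain ⟨i, rfl⟩ := List.mem_ofFn.1 hb
        split_ifs <;> simp
      refine walk_of_list _ (by simp) (fun b hb => ?_) fun j => ?_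
      · rcases h2 b hb with rfl | rfl
        · exact wlen_mul hS _ _
        · exact Nat.le_add_right _ _
      · refine (desc_norm hh (a := 2 * c) _ fun b hb => ?_).trans ?_
        · rcases h2 b (List.mem_of_mem_take hb) with rfl | rfl
          · rw [hh]; linarith [norm_add_le (h s) (h y)]
          · linarith
        · gcongr
          simp)
  rw [Finset.card_image_of_injective _ fun e e' he => by_contra fun hne => hcol n e e' hne he] at h1
  simp only [Finset.card_univ, Fintype.card_fun, Fintype.card_bool, Fintype.card_fin] at h1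
  have h3 : Real.exp (C₀ * (2 * c * n)) = (3 / 2) ^ n := by
    have : C₀ * (2 * c * n) = n * Real.log (3 / 2) := by rw [hc]; field_simp
    rw [this, Real.exp_nat_mul, Real.exp_log (by norm_num)]
  rw [h3] at h1
  have h4 : (2 : ℝ) ^ n = (4 / 3) ^ n * (3 / 2) ^ n := by rw [← mul_pow]; norm_num
  have h5 : (0 : ℝ) < (3 / 2) ^ n := by positivity
  push_cast at h1
  nlinarith

theorem desc_one (J : Subgroup H) [hJn : J.Normal] (t : H) (Y : Finset H) (hY : (Y : Set H) ⊆ J)
    (hJ : J ≤ Subgroup.closure (insert t (Y : Set H)))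
    (hc : ∀ y ∈ Y, Coll t y ∧ Coll t⁻¹ y) : J.FG := by
  let U : Set H := ⋃ y ∈ Y, Set.range fun a : ℤ => t ^ a * y * t ^ (-a)
  have hU : (Subgroup.closure U).FG := by
    simp only [U, Subgroup.closure_iUnion]
    refine Subgroup.FG.biSup_finset Y _ fun y hy => milnor_fg t y fun s hs => ?_
    rcases hs with rfl | rfl
    · exact (hc y hy).1
    · exact (hc y hy).2
  have hn : ∀ (a : ℤ) x, x ∈ Subgroup.closure U → t ^ a * x * t ^ (-a) ∈ Subgroup.closure U := by
    intro a x hx
    induction hx using Subgroup.closure_induction with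
    | mem x hx =>
      obtain ⟨g, hg, b, rfl⟩ := Set.mem_iUnion₂.1 hx
      refine Subgroup.subset_closure (Set.mem_iUnion₂.2 ⟨g, hg, a + b, ?_⟩)
      simp only
      group
    | one => rw [mul_one, ← zpow_add, add_neg_cancel, zpow_zero]; exact Subgroup.one_mem _
    | mul x z _ _ hx hz =>
      convert Subgroup.mul_mem _ hx hz using 1
      group
    | inv x _ hx =>
      convert Subgroup.inv_mem _ hx using 1
      group
  have hk : ∀ k ∈ Subgroup.closure (insert t (Y : Set H)),
      ∃ n : ℤ, k * t ^ (-n) ∈ Subgroup.closure U := fun k hk => by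
    induction hk using Subgroup.closure_induction with
    | mem g hg =>
      rcases hg with rfl | hg
      · exact ⟨1, by simp⟩
      · exact ⟨0, Subgroup.subset_closure (Set.mem_iUnion₂.2 ⟨g, hg, 0, by simp⟩)⟩
    | one => exact ⟨0, by simp⟩
    | mul a b _ _ ha hb =>
      obtain ⟨m, ha⟩ := ha
      obtain ⟨n, hb⟩ := hb
      refine ⟨m + n, ?_⟩
      convert Subgroup.mul_mem _ ha (hn m _ hb) using 1
      group
    | inv a _ ha =>
      obtain ⟨m, ha⟩ := ha
      refine ⟨-m, ?_⟩
      convert hn (-m) _ (Subgroup.inv_mem _ ha) using 1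
      group
  have hle : Subgroup.closure U ≤ J := by
    rw [Subgroup.closure_le]
    intro x hx
    obtain ⟨g, hg, b, rfl⟩ := Set.mem_iUnion₂.1 hx
    have := hJn.conj_mem g (hY hg) (t ^ b)
    simpa using this
  obtain ⟨k, hk'⟩ := (Subgroup.le_zpowers_iff t (J ⊓ Subgroup.zpowers t)).1 inf_le_right
  have h2 : (J ⊓ Subgroup.zpowers t).FG := by
    rw [hk', Subgroup.zpowers_eq_closure]
    exact (Subgroup.fg_iff _).2 ⟨_, rfl, Set.finite_singleton _⟩
  have h3 : Subgroup.closure U ⊔ J ⊓ Subgroup.zpowers t = J := by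
    refine le_antisymm (sup_le hle inf_le_left) fun x hx => ?_
    obtain ⟨n, hn⟩ := hk x (hJ hx)
    have h4 : t ^ n ∈ J := by
      have := J.mul_mem (J.inv_mem (hle hn)) hx
      simpa using this
    have := Subgroup.mul_mem_sup hn (show t ^ n ∈ J ⊓ Subgroup.zpowers t from ⟨h4, n, rfl⟩)
    simpa using this
  exact h3 ▸ hU.sup h2

theorem desc_normal {N J : Subgroup H} (hN : ∀ x y : H, x * y * x⁻¹ * y⁻¹ ∈ N) (h : N ≤ J) :
    J.Normal := ⟨fun y hy x => by
  have := J.mul_mem (h (hN x y)) hy
  simpa using this⟩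

theorem desc (N : Subgroup H) (hN : ∀ x y : H, x * y * x⁻¹ * y⁻¹ ∈ N) (P : H → Prop)
    (hP : ∀ y ∈ N, P y) (hc : ∀ t y, P t → P y → Coll t y ∧ Coll t⁻¹ y) (T : Finset H)
    (hT : ∀ t ∈ T, P t) (h : (N ⊔ Subgroup.closure (T : Set H)).FG) : N.FG := by
  classical
  induction T using Finset.induction_on with
  | empty => simpa using h
  | insert t T _ ih =>
    refine ih (fun x hx => hT x (Finset.mem_insert_of_mem hx)) ?_
    have hNn : N.Normal := desc_normal hN le_rfl
    have hJn : (N ⊔ Subgroup.closure (T : Set H)).Normal := desc_normal hN le_sup_left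
    obtain ⟨U, hU⟩ := h
    have h1 : ∀ u, ∃ y, u ∈ U → y ∈ N ∧
        y⁻¹ * u ∈ Subgroup.closure ((insert t T : Finset H) : Set H) := by
      intro u
      by_cases hu : u ∈ U
      · obtain ⟨y, hy, z, hz, hyz⟩ := Subgroup.mem_sup_of_normal_left.1
          (hU ▸ Subgroup.subset_closure hu)
        exact ⟨y, fun _ => ⟨hy, by rwa [← hyz, inv_mul_cancel_left]⟩⟩
      · exact ⟨1, fun h => absurd h hu⟩
    choose y hy using h1
    refine desc_one _ t (U.image y ∪ T) ?_ ?_ ?_
    · intro x hx
      rcases Finset.mem_union.1 hx with hx | hx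
      · obtain ⟨u, hu, rfl⟩ := Finset.mem_image.1 hx
        exact Subgroup.mem_sup_left (hy u hu).1
      · exact Subgroup.mem_sup_right (Subgroup.subset_closure hx)
    · refine le_trans (b := Subgroup.closure (U : Set H)) ?_ ?_
      · rw [hU]
        exact sup_le_sup_left (Subgroup.closure_mono (Finset.coe_subset.2 (Finset.subset_insert _ _))) N
      refine (Subgroup.closure_le _).2 fun u hu => ?_
      have h2 : y u ∈ Subgroup.closure (insert t ((U.image y ∪ T : Finset H) : Set H)) :=
        Subgroup.subset_closure (Or.inr (Finset.mem_union_left _ (Finset.mem_image_of_mem y hu)))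
      have h3 : (y u)⁻¹ * u ∈ Subgroup.closure (insert t ((U.image y ∪ T : Finset H) : Set H)) :=
        Subgroup.closure_mono (by
          intro x hx
          rcases Finset.mem_insert.1 hx with rfl | hx
          · exact Or.inl rfl
          · exact Or.inr (Finset.mem_union_right _ hx)) (hy u hu).2
      simpa using Subgroup.mul_mem _ h2 h3
    · intro x hx
      refine hc t x (hT t (Finset.mem_insert_self _ _)) ?_
      rcases Finset.mem_union.1 hx with hx | hx
      · obtain ⟨u, hu, rfl⟩ := Finset.mem_image.1 hx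
        exact hP _ (hy u hu).1
      · exact hT x (Finset.mem_insert_of_mem hx)

end Vale.Agent.P188
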