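import Vale.Agent.P188.F.KFG
import Vale.Agent.P188.F.Desc
import Vale.Agent.P188.Gr.Main

/-! Part F: the algebraic conclusion. -/

namespace Vale.Agent.P188

variable {H : Type*} [Group H] {V : Type*} [NormedAddCommGroup V] [NormedSpace ℝ V]
  [FiniteDimensional ℝ V] {h : H → V}

omit [NormedSpace ℝ V] [FiniteDimensional ℝ V] in
theorem alg_ker (hh : IsH h) {S : Finset H} (hf : Few (S : Set H) h) (hN : hh.hom.ker.FG) :
    VirtPolycyclic hh.hom.ker := by
  classical
  obtain ⟨T, hT⟩ := ((Group.fg_iff_subgroup_fg _).2 hN).out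
  obtain ⟨C₀, -, hC⟩ := hf
  obtain ⟨C, D, hCD⟩ := hC (T.sup fun t => wlen (S : Set H) (t : H))
  refine gromov_lite T hT C D fun n => ?_
  have hfin := finite_ball T.finite_toSet hT n
  have h1 := hCD n 0 (hfin.toFinset.map ⟨Subtype.val, Subtype.val_injective⟩) le_rfl (by
    intro y hy
    obtain ⟨x, hx, rfl⟩ := Finset.mem_map.1 hy
    have hx' : wlen (T : Set hh.hom.ker) x ≤ n := by simpa using hx
    obtain ⟨l, h1, h2, h3⟩ := wlen_spec hT x
    have h4 : (l.map Subtype.val).prod = (x : H) := by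
      rw [← h3]; exact (Subgroup.val_list_prod _ l).symm
    have h5 := walk_of_list (S := (S : Set H)) (h := h) (τ := 0) (n := n)
      (ℓ := T.sup fun t => wlen (S : Set H) (t : H)) (l.map Subtype.val)
      (by simpa [h1] using hx') (by
        intro b hb
        obtain ⟨a, ha, rfl⟩ := List.mem_map.1 hb
        rcases h2 a ha with h6 | h6
        · exact Finset.le_sup (f := fun t : hh.hom.ker => wlen (S : Set H) (t : H)) h6
        · have := Finset.le_sup (f := fun t : hh.hom.ker => wlen (S : Set H) (t : H)) h6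
          simpa [wlen_inv] using this) (by
        intro j
        rw [← List.map_take, ← Subgroup.val_list_prod, hh.mem_ker.1 (Subtype.property _), norm_zero])
    rwa [h4] at h5)
  rw [Finset.card_map, mul_zero, Real.exp_zero, mul_one] at h1
  rwa [Set.ncard_eq_toFinset_card _ hfin]

theorem alg_main (hh : IsH h) {S : Finset H} (hS : Subgroup.closure (S : Set H) = ⊤)
    (hf : Few (S : Set H) h) (hp : Paths (S : Set H) h) : VirtPolycyclic H := by
  obtain ⟨c, hc, hcol⟩ := hf.coll hS hh
  obtain ⟨T, hT1, hT2⟩ := exists_gen hh hS c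
  have hcm : ∀ x y : H, x * y * x⁻¹ * y⁻¹ ∈ hh.hom.ker := fun x y => by
    rw [hh.mem_ker, hh, hh, hh, hh.inv, hh.inv]; abel
  have hN := desc hh.hom.ker hcm (fun y => ‖h y‖ < c)
    (fun y hy => by rwa [hh.mem_ker.1 hy, norm_zero])
    (fun t y ht hy => ⟨hcol t y ht hy, hcol t⁻¹ y (by rwa [hh.inv, norm_neg]) hy⟩) T hT1
    (k_fg hh hS hp hc T hT2)
  have : Group.FG H := Group.fg_iff.2 ⟨S, hS, S.finite_toSet⟩
  exact VirtPolycyclic.of_comm_quotient _ (alg_ker hh hf hN) hcm

end Vale.Agent.P188
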