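import Vale.Agent.P188.F.ADefs

/-! Part F: approximation of values of a homomorphism by short words.
Plan.  `approx_int`: the linear map `(T → ℝ) → span`, `lam ↦ ∑ lam t • h t` is onto, so it has a
linear (hence bounded) right inverse (`LinearMap.exists_rightInverse_of_surjective`,
`LinearMap.toContinuousLinearMap`); take `r = ∏ t ^ ⌊lam t⌋` (product over `T.toList`),
`wlen (t ^ a) ≤ |a| * wlen t`.
`approx_small`: apply `approx_int` with `T = S` (every `h g` lies in the span of `h '' S`, closure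
induction); the set of values `h u` of norm `≤ C` is bounded, so totally bounded:
`TotallyBounded.exists_subset_of_mem` / `Metric.finite_approx_of_totallyBounded` gives finitely
many centres `h u`, `u ∈ U`; take `r' = u * r`.
`exists_gen`: the subgroup of the finitely generated commutative group `hh.hom.range` generated by
the small values is finitely generated (`AddSubgroup`/`Submodule ℤ V`: the `ℤ`-span of `h '' S` is a
Noetherian module; `Submodule.exists_fg...`, `IsNoetherian.noetherian`,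
`Submodule.fg_span_iff_fg_span_finset_subset`). -/

namespace Vale.Agent.P188

variable {H : Type*} [Group H] {V : Type*} [NormedAddCommGroup V] [NormedSpace ℝ V]
  [FiniteDimensional ℝ V] {h : H → V}

theorem approx_coef {ι : Type*} [Fintype ι] (f : ι → V) : ∃ C : ℝ, 0 ≤ C ∧
    ∀ v ∈ Submodule.span ℝ (Set.range f), ∃ lam : ι → ℝ, ∑ t, lam t • f t = v ∧
      ∀ t, |lam t| ≤ C * ‖v‖ := by
  obtain ⟨g, hg⟩ := (Fintype.linearCombination ℝ f).rangeRestrict.exists_rightInverse_of_surjective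
    (LinearMap.range_rangeRestrict _)
  refine ⟨‖LinearMap.toContinuousLinearMap g‖, ContinuousLinearMap.opNorm_nonneg _,
    fun v hv => ?_⟩
  rw [← Fintype.range_linearCombination] at hv
  refine ⟨g ⟨v, hv⟩, ?_, fun t => (norm_le_pi_norm (g ⟨v, hv⟩) t).trans
    ((LinearMap.toContinuousLinearMap g).le_opNorm ⟨v, hv⟩)⟩
  rw [← Fintype.linearCombination_apply]
  exact congrArg Subtype.val (LinearMap.congr_fun hg ⟨v, hv⟩)

theorem approx_zpow {S : Set H} (hS : Subgroup.closure S = ⊤) (t : H) (a : ℤ) :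
    (wlen S (t ^ a) : ℝ) ≤ |(a : ℝ)| * wlen S t := by
  have h1 : ∀ n : ℕ, wlen S (t ^ n) ≤ n * wlen S t := fun n => by
    induction n with
    | zero => simp [wlen_one]
    | succ n ih => rw [pow_succ, Nat.succ_mul]; exact (wlen_mul hS _ _).trans (by omega)
  obtain ⟨k, rfl | rfl⟩ := a.eq_nat_or_neg
  · rw [zpow_natCast, Int.cast_natCast, Nat.abs_cast]
    exact_mod_cast h1 k
  · rw [zpow_neg, zpow_natCast, wlen_inv, Int.cast_neg, abs_neg, Int.cast_natCast, Nat.abs_cast]
    exact_mod_cast h1 k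

theorem approx_span {R : Type*} [Ring R] [Module R V] (hh : IsH h) {S : Set H}
    (hS : Subgroup.closure S = ⊤) (g : H) : h g ∈ Submodule.span R (h '' S) := by
  have hg : g ∈ Subgroup.closure S := hS ▸ Subgroup.mem_top g
  induction hg using Subgroup.closure_induction with
  | mem x hx => exact Submodule.subset_span ⟨x, hx, rfl⟩
  | one => rw [hh.one]; exact Submodule.zero_mem _
  | mul x y _ _ h1 h2 => rw [hh]; exact Submodule.add_mem _ h1 h2
  | inv x _ h1 => rw [hh.inv]; exact Submodule.neg_mem _ h1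

theorem approx_int (hh : IsH h) {S : Finset H} (hS : Subgroup.closure (S : Set H) = ⊤)
    (T : Finset H) : ∃ C : ℝ, 0 ≤ C ∧ ∀ v ∈ Submodule.span ℝ (h '' (T : Set H)),
      ∃ r ∈ Subgroup.closure (T : Set H), (wlen (S : Set H) r : ℝ) ≤ C * (1 + ‖v‖) ∧
        ‖v - h r‖ ≤ C := by
  obtain ⟨C, hC, H1⟩ := approx_coef fun t : T => h t
  have hw : (0 : ℝ) ≤ ∑ t : T, (wlen (S : Set H) t : ℝ) := by positivity
  have hn : (0 : ℝ) ≤ ∑ t : T, ‖h t‖ := by positivity
  refine ⟨(C + 1) * ∑ t : T, (wlen (S : Set H) t : ℝ) + ∑ t : T, ‖h t‖, by positivity,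
    fun v hv => ?_⟩
  obtain ⟨lam, rfl, h2⟩ := H1 v (by rwa [Set.image_eq_range] at hv)
  set v := ∑ t, lam t • h (t : T) with hv'
  refine ⟨((Finset.univ : Finset T).toList.map fun t : T => (t : H) ^ ⌊lam t⌋).prod,
    Subgroup.list_prod_mem _ fun x hx => ?_, ?_, ?_⟩
  · obtain ⟨t, -, rfl⟩ := List.mem_map.1 hx
    exact Subgroup.zpow_mem _ (Subgroup.subset_closure t.2) _
  · have h3 := wlen_prod hS ((Finset.univ : Finset T).toList.map fun t : T => (t : H) ^ ⌊lam t⌋)
    rw [List.map_map, Finset.sum_map_toList] at h3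
    refine (Nat.cast_le.2 h3).trans ?_
    rw [Nat.cast_sum]
    have h4 : ∑ t : T, (wlen (S : Set H) ((t : H) ^ ⌊lam t⌋) : ℝ) ≤
        ∑ t : T, (C * ‖v‖ + 1) * (wlen (S : Set H) t : ℝ) := Finset.sum_le_sum fun t _ => by
      refine (approx_zpow hS _ _).trans (mul_le_mul_of_nonneg_right ?_ (by positivity))
      have := abs_le.1 (h2 t)
      exact abs_le.2 ⟨by linarith [Int.lt_floor_add_one (lam t)],
        by linarith [Int.floor_le (lam t)]⟩
    rw [← Finset.mul_sum] at h4
    refine h4.trans ?_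
    have := norm_nonneg v
    nlinarith [mul_nonneg hn this, mul_nonneg hw this, mul_nonneg hC hw]
  · rw [hh.prod, List.map_map, Finset.sum_map_toList, hv', ← Finset.sum_sub_distrib]
    refine (norm_sum_le _ _).trans ((Finset.sum_le_sum fun t _ => ?_).trans
      (le_add_of_nonneg_left (by positivity)))
    rw [Function.comp_apply, hh.zpow, ← Int.cast_smul_eq_zsmul ℝ, ← sub_smul, norm_smul]
    refine mul_le_of_le_one_left (norm_nonneg _) (abs_le.2 ⟨?_, ?_⟩)
    · linarith [Int.floor_le (lam t)]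
    · linarith [Int.lt_floor_add_one (lam t)]

theorem approx_small (hh : IsH h) {S : Finset H} (hS : Subgroup.closure (S : Set H) = ⊤)
    {c : ℝ} (hc : 0 < c) : ∃ C : ℝ, 0 ≤ C ∧ ∀ g, ∃ r, (wlen (S : Set H) r : ℝ) ≤ C * (1 + ‖h g‖) ∧
      ‖h g - h r‖ < c := by
  obtain ⟨C, hC, H1⟩ := approx_int hh hS S
  obtain ⟨A, h1, h2, h3⟩ := Metric.finite_approx_of_totallyBounded
    ((isCompact_closedBall (0 : V) C).totallyBounded.subset
      (Set.inter_subset_right (s := Set.range h))) c hc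
  obtain ⟨U, -, hU, rfl⟩ := h2.exists_subset_finite_image_eq (f := h) (s := Set.univ)
    fun y hy => by simpa using (h1 hy).1
  obtain ⟨B, hB⟩ := (hU.image (wlen (S : Set H))).bddAbove
  refine ⟨C + B, by positivity, fun g => ?_⟩
  obtain ⟨r, -, h4, h5⟩ := H1 _ (approx_span hh hS g)
  obtain ⟨_, ⟨u, hu, rfl⟩, h6⟩ := Set.mem_iUnion₂.1 (h3 (show h g - h r ∈ _ from
    ⟨⟨g * r⁻¹, by rw [hh, hh.inv, sub_eq_add_neg]⟩, by simpa using h5⟩))
  refine ⟨u * r, ?_, ?_⟩
  · have h7 : (wlen (S : Set H) (u * r) : ℝ) ≤ B + wlen (S : Set H) r := by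
      exact_mod_cast (wlen_mul hS u r).trans (Nat.add_le_add_right (hB ⟨u, hu, rfl⟩) _)
    nlinarith [mul_nonneg (Nat.cast_nonneg (α := ℝ) B) (norm_nonneg (h g))]
  · rwa [Metric.mem_ball, dist_eq_norm, sub_sub, add_comm, ← hh] at h6

theorem exists_gen (hh : IsH h) {S : Finset H} (hS : Subgroup.closure (S : Set H) = ⊤) (c : ℝ) :
    ∃ T : Finset H, (∀ t ∈ T, ‖h t‖ < c) ∧
      ∀ g, ‖h g‖ < c → g ∈ hh.hom.ker ⊔ Subgroup.closure (T : Set H) := by
  have h1 : (Submodule.span ℤ (h '' {g | ‖h g‖ < c})).FG :=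
    (Submodule.fg_span (S.finite_toSet.image h)).of_le (Submodule.span_le.2 (by
      rintro _ ⟨g, -, rfl⟩; exact approx_span hh hS g))
  obtain ⟨A, h2, h3⟩ := (Submodule.fg_span_iff_fg_span_finset_subset _).1 h1
  obtain ⟨U, h4, hU, h5⟩ := A.finite_toSet.exists_subset_finite_image_eq h2
  refine ⟨hU.toFinset, fun t ht => h4 (hU.mem_toFinset.1 ht), fun g hg => ?_⟩
  have h6 : ∀ v ∈ Submodule.span ℤ (A : Set V), ∃ r ∈ Subgroup.closure U, h r = v := by
    intro v hv
    induction hv using Submodule.span_induction with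
    | mem x hx =>
      obtain ⟨u, hu, rfl⟩ := h5.symm ▸ hx
      exact ⟨u, Subgroup.subset_closure hu, rfl⟩
    | zero => exact ⟨1, Subgroup.one_mem _, hh.one⟩
    | add _ _ _ _ a b =>
      obtain ⟨r, hr, rfl⟩ := a
      obtain ⟨r', hr', rfl⟩ := b
      exact ⟨_, Subgroup.mul_mem _ hr hr', hh _ _⟩
    | smul n _ _ a =>
      obtain ⟨r, hr, rfl⟩ := a
      exact ⟨_, Subgroup.zpow_mem _ hr n, hh.zpow _ _⟩
  obtain ⟨r, hr, h7⟩ := h6 (h g) (h3 ▸ Submodule.subset_span ⟨g, hg, rfl⟩)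
  rw [hU.coe_toFinset, ← inv_mul_cancel_right g r]
  exact Subgroup.mul_mem_sup (hh.mem_ker.2 (by rw [hh, hh.inv, h7, add_neg_cancel])) hr

end Vale.Agent.P188
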