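import Vale.Agent.P188.F.GDefs

/-! Part F: counting points of `H` by volume in `G`.
Plan.  `count_up`: the sets `E g = (fun b => α g * b) '' Q` are compact, of volume `volume Q`
(left invariance, `measure_preimage_mul`/`measure_smul`; `volume Q ≠ 0, ⊤`).  If `x ∈ E g ∩ E g'`
then `ln ((α g)⁻¹ * α g') ≤ 2`, so `wlen (g⁻¹ g') ≤ K (2 + C)`: every `x` lies in at most
`N₀ = card ball` of the `E g` (`finite_ball`).  Integrate
`∑ g ∈ F, indicator (E g) ≤ N₀ * indicator (⋃ g ∈ F, E g)`.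
`count_low`: `F = {g | ∃ x ∈ T, ln (x⁻¹ * α g) ≤ C}` is finite (`exists_ln_le`, `finite_ball`),
`T ⊆ ⋃ g ∈ F, α g * {ln ≤ C}`, each of volume `volume {ln ≤ C} < ⊤` (`isCompact_ball`). -/

namespace Vale.Agent.P188.Geo
open scoped Pointwise
open MeasureTheory
variable (M : Geo) {H : Type*} [Group H] {S : Finset H} {K C : ℝ} {α : H → M.G}

theorem count_wlen (hα : IsQI (S : Set H) M.Q K C α) {g g' : H} {R : ℝ}
    (h : M.ln ((α g)⁻¹ * α g') ≤ R) : wlen (S : Set H) (g⁻¹ * g') ≤ ⌈K * (R + C)⌉₊ := by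
  have h1 := (hα.2.2.1 g g').1
  have hK : 0 < K := lt_of_lt_of_le one_pos hα.1
  rw [M.wdist_eq] at h1
  have h2 : wdist (S : Set H) g g' ≤ K * (R + C) := by
    rw [← inv_mul_le_iff₀ hK]
    linarith
  have h3 : (wlen (S : Set H) (g⁻¹ * g') : ℝ) ≤ ⌈K * (R + C)⌉₊ := h2.trans (Nat.le_ceil _)
  exact_mod_cast h3

theorem count_up (hS : Subgroup.closure (S : Set H) = ⊤) (hα : IsQI (S : Set H) M.Q K C α) :
    ∃ C' : ℝ, 1 ≤ C' ∧ ∀ (F : Finset H) (T : Set M.G), (∀ g ∈ F, α g ∈ T) →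
      (F.card : ENNReal) ≤ ENNReal.ofReal C' * volume (T * M.Q) := by
  classical
  set Bl := (finite_ball S.finite_toSet hS ⌈K * (2 + C)⌉₊).toFinset with hBl
  have hQ0 := M.qv_Q_pos
  have hQ1 : volume M.Q ≠ ⊤ := M.qv_Q_cpt.measure_lt_top.ne
  have hq : 0 < (volume M.Q).toReal := ENNReal.toReal_pos hQ0 hQ1
  refine ⟨1 + Bl.card / (volume M.Q).toReal, le_add_of_nonneg_right (by positivity),
    fun F T hT => ?_⟩
  let E : H → Set M.G := fun g => (fun x => (α g)⁻¹ * x) ⁻¹' M.Q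
  have hE : ∀ g, MeasurableSet (E g) := fun g =>
    (measurable_const_mul _) M.qv_Q_cpt.isClosed.measurableSet
  have hU : MeasurableSet (⋃ g ∈ F, E g) := F.measurableSet_biUnion fun g _ => hE g
  have hUT : (⋃ g ∈ F, E g) ⊆ T * M.Q := Set.iUnion₂_subset fun g hg x hx =>
    ⟨α g, hT g hg, (α g)⁻¹ * x, hx, mul_inv_cancel_left _ _⟩
  have hp : ∀ x, ∑ g ∈ F, (E g).indicator (fun _ => (1 : ENNReal)) x ≤
      (⋃ g ∈ F, E g).indicator (fun _ => (Bl.card : ENNReal)) x := by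
    intro x
    by_cases hx : x ∈ ⋃ g ∈ F, E g
    · rw [Set.indicator_of_mem hx]
      obtain ⟨g₀, -, h₀⟩ := Set.mem_iUnion₂.1 hx
      simp only [Set.indicator_apply, Finset.sum_boole, Nat.cast_le]
      refine Finset.card_le_card_of_injOn (fun g => g₀⁻¹ * g) (fun g hg => ?_)
        (fun g _ g' _ e => mul_left_cancel e)
      have hg' : x ∈ E g := (Finset.mem_filter.1 hg).2
      rw [hBl, Finset.mem_coe, Set.Finite.mem_toFinset]
      refine M.count_wlen hα ?_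
      have h1 := M.ln_mul ((α g₀)⁻¹ * x) ((α g)⁻¹ * x)⁻¹
      rw [M.ln_inv, show (α g₀)⁻¹ * x * ((α g)⁻¹ * x)⁻¹ = (α g₀)⁻¹ * α g by group] at h1
      have h2 := M.ln_le_one (mem_closedBall_zero_iff.1 h₀)
      have h3 := M.ln_le_one (mem_closedBall_zero_iff.1 hg')
      linarith
    · rw [Finset.sum_eq_zero fun g hg =>
        Set.indicator_of_notMem (fun h => hx (Set.mem_biUnion hg h)) _]
      exact zero_le
  have h1 := lintegral_mono (μ := volume) hp
  rw [lintegral_finsetSum _ fun g _ => measurable_const.indicator (hE g),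
    lintegral_indicator_const hU,
    Finset.sum_congr rfl fun g _ => (lintegral_indicator_const (hE g) 1).trans
      ((one_mul _).trans (measure_preimage_mul volume _ _)), Finset.sum_const, nsmul_eq_mul] at h1
  have h2 : (Bl.card : ENNReal) ≤
      ENNReal.ofReal (1 + Bl.card / (volume M.Q).toReal) * volume M.Q := by
    conv_rhs => rw [← ENNReal.ofReal_toReal hQ1]
    rw [← ENNReal.ofReal_mul (by positivity), ← ENNReal.ofReal_natCast]
    refine ENNReal.ofReal_le_ofReal ?_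
    rw [ENNReal.toReal_ofReal hq.le, add_mul, div_mul_cancel₀ _ hq.ne']
    linarith
  have h3 : (F.card : ENNReal) * volume M.Q ≤
      ENNReal.ofReal (1 + Bl.card / (volume M.Q).toReal) * volume (T * M.Q) * volume M.Q := by
    rw [mul_right_comm]
    exact h1.trans (mul_le_mul' h2 (measure_mono hUT))
  exact (ENNReal.mul_le_mul_iff_left hQ0 hQ1).1 h3

theorem count_low (hS : Subgroup.closure (S : Set H) = ⊤) (hα : IsQI (S : Set H) M.Q K C α) :
    ∃ C' : ℝ, 1 ≤ C' ∧ ∀ T : Set M.G, IsCompact T → ∃ F : Finset H,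
      (∀ g ∈ F, ∃ x ∈ T, M.ln (x⁻¹ * α g) ≤ C') ∧ volume T ≤ ENNReal.ofReal C' * F.card := by
  classical
  have hv : volume {z : M.G | M.ln z ≤ C} ≠ ⊤ := (M.isCompact_ball C).measure_lt_top.ne
  have hv0 : 0 ≤ (volume {z : M.G | M.ln z ≤ C}).toReal := ENNReal.toReal_nonneg
  have hC := hα.2.1
  refine ⟨1 + C + (volume {z : M.G | M.ln z ≤ C}).toReal, by linarith, fun T hT => ?_⟩
  obtain ⟨R, hR⟩ := M.exists_ln_le hT
  have hfin : {g | ∃ x ∈ T, M.ln (x⁻¹ * α g) ≤ C}.Finite := by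
    refine (finite_ball S.finite_toSet hS ⌈K * (M.ln (α 1) + R + C + C)⌉₊).subset ?_
    rintro g ⟨x, hx, h⟩
    have h1 := M.count_wlen hα (g := 1) (g' := g) (R := M.ln (α 1) + R + C) (by
      have h2 := M.ln_mul (α 1)⁻¹ (x * (x⁻¹ * α g))
      have h3 := M.ln_mul x (x⁻¹ * α g)
      rw [M.ln_inv] at h2
      rw [mul_inv_cancel_left] at h2 h3
      linarith [hR x hx])
    rwa [inv_one, one_mul] at h1
  refine ⟨hfin.toFinset, fun g hg => ?_, ?_⟩
  · obtain ⟨x, hx, h⟩ := hfin.mem_toFinset.1 hg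
    exact ⟨x, hx, by linarith⟩
  · have h1 : T ⊆ ⋃ g ∈ hfin.toFinset, {z | M.ln ((α g)⁻¹ * z) ≤ C} := fun x hx => by
      obtain ⟨g, hg⟩ := hα.2.2.2 x
      rw [M.wdist_eq] at hg
      refine Set.mem_biUnion (Finset.mem_coe.2 (hfin.mem_toFinset.2 ⟨x, hx, hg⟩)) ?_
      show M.ln ((α g)⁻¹ * x) ≤ C
      rwa [← M.ln_inv, mul_inv_rev, inv_inv]
    refine ((measure_mono h1).trans (measure_biUnion_finset_le _ _)).trans ?_
    rw [Finset.sum_congr rfl fun g _ => M.qv_ball C (α g), Finset.sum_const, nsmul_eq_mul, mul_comm]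
    refine mul_le_mul' ?_ le_rfl
    conv_lhs => rw [← ENNReal.ofReal_toReal hv]
    exact ENNReal.ofReal_le_ofReal (by linarith)

end Vale.Agent.P188.Geo
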