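import Vale.Agent.P188.AffDefs
import Vale.Agent.P188.F.ADefs

/-! Part F: geometric definitions.  Plan: notes/P188_F.md. -/

namespace Vale.Agent.P188.Geo
variable (M : Geo)

/-- Products `x * ζ` with `x ∈ K R`, `ζ ∈ Z ρ` of height at most `ℓ`. -/
def Box (R ρ ℓ : ℝ) : Set M.G :=
  {g | ∃ x ∈ M.K (fun _ => R), ∃ ζ ∈ M.Z ρ, ‖M.A ζ‖ ≤ ℓ ∧ g = x * ζ}

/-- `φ` preserves height differences up to sublinear errors, and logarithmic errors on flats. -/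
def Rg (Cf : ℝ → ℝ) (D : ℝ) (φ : M.G → M.G) : Prop :=
  (∀ ε : ℝ, 0 < ε → ∀ p q,
    ‖M.A (φ q) - M.A (φ p) - (M.A q - M.A p)‖ ≤ ε * M.ln (p⁻¹ * q) + Cf ε) ∧
  ∀ p, ∀ z ∈ M.u0, M.A z = 0 → ‖M.A (φ (p * z)) - M.A (φ p)‖ ≤ D * Real.log (2 + ‖z‖)

/-- Left translations of `H` are induced by uniformly rigid maps of `G`. -/
def Rig {H : Type*} [Group H] (α : H → M.G) : Prop :=
  ∃ (Cf : ℝ → ℝ) (D : ℝ), 0 ≤ D ∧ ∀ g : H, ∃ φ : M.G → M.G, M.Rg Cf D φ ∧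
    ∀ x, M.ln ((φ (α x))⁻¹ * α (g * x)) ≤ D

/-- `h` is sublinearly close to the height. -/
def Near1 {H : Type*} (α : H → M.G) (h : H → M.V) : Prop :=
  ∀ ε : ℝ, 0 < ε → ∃ C : ℝ, ∀ s, ‖h s - M.A (α s)‖ ≤ ε * M.ln (α s) + C

/-- The refined comparison of `h` and the height. -/
def Near2 {H : Type*} (α : H → M.G) (h : H → M.V) : Prop :=
  ∀ ε : ℝ, 0 < ε → ∃ C : ℝ, 0 ≤ C ∧ ∀ s, ∀ R ρ ℓ : ℝ, 0 ≤ R → 0 ≤ ρ → α s ∈ M.Box R ρ ℓ →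
    ‖h s - M.A (α s)‖ ≤ ε * (R + ℓ) + C * Real.log (2 + ρ)

theorem Box_mono {R R' ρ ρ' ℓ ℓ' : ℝ} (h1 : R ≤ R') (h0 : 0 ≤ ρ) (h2 : ρ ≤ ρ') (h3 : ℓ ≤ ℓ') :
    M.Box R ρ ℓ ⊆ M.Box R' ρ' ℓ' := by
  rintro g ⟨x, hx, ζ, hζ, h4, rfl⟩
  exact ⟨x, M.K_mono (fun _ _ => h1) hx, ζ, M.Z_mono h0 h2 hζ, h4.trans h3, rfl⟩

end Vale.Agent.P188.Geo
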