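import Vale.Agent.P188.F.Approx

/-! Part F: the subgroup `J = ker h ⊔ ⟨T⟩` containing all elements with small `h` is finitely
generated.
Plan.  Show by strong induction on `n = wlen y` that every `y ∈ J` lies in the closure `L` of
`T ∪ {g ∈ J | wlen g ≤ N}` (finite by `finite_ball`).  For `n > N`: `h y ∈ span (h '' T)`
(`Subgroup.mem_sup_of_normal_left`-type decomposition `y = k * t`, or `sup_le`/closure induction),
`‖h y‖ ≤ L n` (`IsH.norm_le`); `approx_int` gives `r ∈ ⟨T⟩`, `y' = y * r⁻¹ ∈ J`, `wlen y' ≤ C₁ n`,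
`‖h y'‖ ≤ C`.  `Paths` with small `ε` gives a walk `g 0 = 1, …, g m = y'` with steps `≤ ℓ` and
`‖h (g j)‖ ≤ C + ε C₁ n + Cε`.  `approx_small` gives `r j` with `k j = g j * (r j)⁻¹ ∈ J`
(small `h`), `wlen (r j) ≤ C₂ (1 + C + ε C₁ n + Cε)`; override `r 0 = r m = 1`.  Then
`(k j)⁻¹ * k (j+1) = r j * ((g j)⁻¹ * g (j+1)) * (r (j+1))⁻¹ ∈ J` has length `< n` when
`2 C₂ ε C₁ ≤ 1/2` and `N` is large, so lies in `L`; `y' = ∏` (`tele_prod`) and `y = y' * r`. -/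

namespace Vale.Agent.P188

variable {H : Type*} [Group H] {V : Type*} [NormedAddCommGroup V] [NormedSpace ℝ V]
  [FiniteDimensional ℝ V] {h : H → V}

omit [FiniteDimensional ℝ V] in
theorem kfg_span (hh : IsH h) (T : Finset H) {y : H}
    (hy : y ∈ hh.hom.ker ⊔ Subgroup.closure (T : Set H)) :
    h y ∈ Submodule.span ℝ (h '' (T : Set H)) := by
  let P : Subgroup H :=
    { carrier := {g | h g ∈ Submodule.span ℝ (h '' (T : Set H))}
      mul_mem' := fun {a b} ha hb => by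
        simp only [Set.mem_setOf_eq] at *
        rw [hh]; exact Submodule.add_mem _ ha hb
      one_mem' := by simp [hh.one]
      inv_mem' := fun {a} ha => by
        simp only [Set.mem_setOf_eq] at *
        rw [hh.inv]; exact Submodule.neg_mem _ ha }
  have : hh.hom.ker ⊔ Subgroup.closure (T : Set H) ≤ P := by
    refine sup_le (fun g hg => ?_) ((Subgroup.closure_le _).2 fun t ht => ?_)
    · show h g ∈ Submodule.span ℝ (h '' (T : Set H))
      rw [hh.mem_ker.1 hg]; exact Submodule.zero_mem _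
    · exact Submodule.subset_span ⟨t, ht, rfl⟩
  exact this hy

omit [NormedSpace ℝ V] [FiniteDimensional ℝ V] in
theorem kfg_walk (hh : IsH h) {S : Finset H} (hS : Subgroup.closure (S : Set H) = ⊤)
    {c C τ : ℝ} (hC : 0 ≤ C) (J L : Subgroup H) (hJ : ∀ g, ‖h g‖ < c → g ∈ J)
    (ha : ∀ g, ∃ r, (wlen (S : Set H) r : ℝ) ≤ C * (1 + ‖h g‖) ∧ ‖h g - h r‖ < c) {ℓ m : ℕ} {y : H}
    (hy : y ∈ J) (hw : Walk (S : Set H) h ℓ τ m y)
    (hL : ∀ k ∈ J, (wlen (S : Set H) k : ℝ) ≤ 2 * (C * (1 + τ)) + ℓ → k ∈ L) : y ∈ L := by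
  obtain ⟨g, h0, hm, hs, ht⟩ := hw
  have key : ∀ j, ∃ r, j ≤ m → (wlen (S : Set H) r : ℝ) ≤ C * (1 + τ) ∧ g j * r⁻¹ ∈ J ∧
      (j = 0 ∨ j = m → r = 1) := by
    intro j
    by_cases hj : j = 0 ∨ j = m
    · refine ⟨1, fun hjm => ⟨?_, ?_, fun _ => rfl⟩⟩
      · have := (norm_nonneg _).trans (ht j hjm)
        rw [wlen_one, Nat.cast_zero]; positivity
      · rw [inv_one, mul_one]
        rcases hj with rfl | rfl
        · rw [h0]; exact J.one_mem
        · rwa [hm]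
    · obtain ⟨r, h1, h2⟩ := ha (g j)
      refine ⟨r, fun hjm => ⟨h1.trans ?_, hJ _ ?_, fun h3 => absurd h3 hj⟩⟩
      · have := ht j hjm
        gcongr
      · rwa [hh, hh.inv, ← sub_eq_add_neg]
  choose r hr using key
  have h1 := tele_prod (fun j => g j * (r j)⁻¹) m
  simp only [h0, hm, (hr 0 (Nat.zero_le _)).2.2 (Or.inl rfl), (hr m le_rfl).2.2 (Or.inr rfl),
    inv_one, mul_one, one_mul] at h1
  rw [← h1]
  refine L.list_prod_mem fun x hx => ?_
  obtain ⟨j, hj, rfl⟩ := List.mem_map.1 hx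
  have hj' := List.mem_range.1 hj
  obtain ⟨a1, a2, -⟩ := hr j hj'.le
  obtain ⟨b1, b2, -⟩ := hr (j + 1) hj'
  refine hL _ (J.mul_mem (J.inv_mem a2) b2) ?_
  have h2 : (g j * (r j)⁻¹)⁻¹ * (g (j + 1) * (r (j + 1))⁻¹) =
      r j * ((g j)⁻¹ * g (j + 1)) * (r (j + 1))⁻¹ := by group
  have h3 := wlen_mul hS (r j * ((g j)⁻¹ * g (j + 1))) (r (j + 1))⁻¹
  have h4 := wlen_mul hS (r j) ((g j)⁻¹ * g (j + 1))
  rw [wlen_inv] at h3
  have h5 := hs j hj'
  have h6 : (wlen (S : Set H) (r j * ((g j)⁻¹ * g (j + 1)) * (r (j + 1))⁻¹) : ℝ) ≤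
      wlen (S : Set H) (r j) + ℓ + wlen (S : Set H) (r (j + 1)) := by
    exact_mod_cast (by omega)
  rw [h2]
  linarith

theorem k_fg (hh : IsH h) {S : Finset H} (hS : Subgroup.closure (S : Set H) = ⊤)
    (hp : Paths (S : Set H) h) {c : ℝ} (hc : 0 < c) (T : Finset H)
    (hT : ∀ g, ‖h g‖ < c → g ∈ hh.hom.ker ⊔ Subgroup.closure (T : Set H)) :
    (hh.hom.ker ⊔ Subgroup.closure (T : Set H)).FG := by
  obtain ⟨L, hL, hL'⟩ := hh.norm_le hS
  obtain ⟨C₁, hC₁, h1⟩ := approx_int hh hS T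
  obtain ⟨C₂, hC₂, h2⟩ := approx_small hh hS hc
  obtain ⟨ℓ, hp⟩ := hp
  set J := hh.hom.ker ⊔ Subgroup.closure (T : Set H) with hJ
  obtain ⟨B, hB⟩ : ∃ B, B = 1 + C₁ * (1 + L) := ⟨_, rfl⟩
  have hB1 : 1 ≤ B := by rw [hB]; nlinarith
  obtain ⟨ε, hε⟩ : ∃ ε, ε = 1 / (4 * (C₂ + 1) * B) := ⟨_, rfl⟩
  have hε0 : 0 < ε := by rw [hε]; positivity
  have hε1 : 4 * (C₂ + 1) * B * ε = 1 := by rw [hε]; field_simp
  obtain ⟨C₃, h3⟩ := hp ε hε0
  obtain ⟨N, hN⟩ := exists_nat_ge (2 * (2 * (C₂ * (1 + C₁ + C₃)) + ℓ))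
  let U : Set H := (T : Set H) ∪ {g | g ∈ J ∧ wlen (S : Set H) g ≤ N}
  have hU : U.Finite :=
    T.finite_toSet.union ((finite_ball S.finite_toSet hS N).subset fun g hg => hg.2)
  refine (Subgroup.fg_iff _).2 ⟨U, le_antisymm ((Subgroup.closure_le _).2 ?_) ?_, hU⟩
  · rintro g (hg | hg)
    · exact Subgroup.mem_sup_right (Subgroup.subset_closure hg)
    · exact hg.1
  suffices ∀ n, ∀ y ∈ J, wlen (S : Set H) y = n → y ∈ Subgroup.closure U from
    fun y hy => this _ y hy rfl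
  intro n
  induction n using Nat.strong_induction_on with
  | _ n ih =>
  intro y hy hn
  by_cases hnN : n ≤ N
  · exact Subgroup.subset_closure (Or.inr ⟨hy, hn ▸ hnN⟩)
  have hn1 : (N : ℝ) + 1 ≤ n := by exact_mod_cast (by omega)
  have hn0 : (1 : ℝ) ≤ n := by linarith [(Nat.cast_nonneg N : (0 : ℝ) ≤ N)]
  obtain ⟨r, hr, h4, h5⟩ := h1 (h y) (kfg_span hh T hy)
  have h6 : y * r⁻¹ ∈ J := J.mul_mem hy (J.inv_mem (Subgroup.mem_sup_right hr))
  have h7 : (wlen (S : Set H) (y * r⁻¹) : ℝ) ≤ B * n := by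
    have a1 := wlen_mul hS y r⁻¹
    rw [wlen_inv, hn] at a1
    have a2 : (wlen (S : Set H) (y * r⁻¹) : ℝ) ≤ n + wlen (S : Set H) r := by exact_mod_cast a1
    have a3 := hL' y
    rw [hn] at a3
    have a4 : C₁ * (1 + ‖h y‖) ≤ C₁ * (n + L * n) := by gcongr
    rw [hB]; nlinarith
  have h8 : ‖h (y * r⁻¹)‖ ≤ C₁ := by rwa [hh, hh.inv, ← sub_eq_add_neg]
  obtain ⟨m, hw⟩ := h3 (y * r⁻¹)
  have h9 := kfg_walk hh hS hC₂ J (Subgroup.closure U) hT h2 h6
    (hw.mono le_rfl (τ' := C₁ + ε * (B * n) + C₃) (by gcongr)) fun k hk hk' => by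
      refine ih _ ?_ k hk rfl
      have a1 : C₂ * (ε * (B * n)) ≤ n / 4 := by
        have : 0 ≤ ε * (B * n) := by positivity
        nlinarith
      have : (wlen (S : Set H) k : ℝ) < n := by nlinarith
      exact_mod_cast this
  have h10 : r ∈ Subgroup.closure U := Subgroup.closure_mono Set.subset_union_left hr
  simpa using Subgroup.mul_mem _ h9 h10

end Vale.Agent.P188
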