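import Vale.Agent.P188.F.GDefs

/-! Part F: the quasi-action, and the exact form of `T1Stmt`.
Plan.  `exists_phi`: `H` is countable (union of the finite balls, `finite_ball`), enumerate it by
`u : ℕ → H` surjective; `β y = u (Nat.find (∃ n, ln (y⁻¹ * α (u n)) ≤ C))`; `f ∘ β` is measurable
for every `f` (`Measurable.find` with constant functions, `measurable_ln`).  `IsQI.inv` makes `β` a
quasi-isometry with `wdist x (β (α x)) ≤ K (C + C)`; `φ g = fun y => α (g * β y)` is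
`(hβ.comp closure_Q (hα.comp_mul_left g))`.
`t1_exact`: `ι` from `exists_sec`, `c` from `W_sep`, `ε₀` with `2 ε₀ ‖ι‖ ≤ c`.  If `w, w' ∈ W` satisfy
the inequality for `ε, ε' ≤ ε₀` (any constants) then testing on `p = 1`, `q = ι (t • v)`
(`ln_tame`) and letting `t → ∞` gives `‖w v - w' v‖ ≤ c ‖v‖`, so `w = w'`.  Take `w` from `ε₀` and
`Cf ε = C' (min ε ε₀)`. -/

namespace Vale.Agent.P188.Geo
variable (M : Geo) {H : Type*} [Group H] {S : Finset H} {K C : ℝ} {α : H → M.G}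

theorem Phi_sel : ∃ β : M.G → M.G, (∀ f : M.G → M.G, Measurable fun z => f (β z)) ∧
    ∀ z, wdist M.Q z (β z) ≤ 1 := by
  classical
  let y := TopologicalSpace.denseSeq M.G
  have hex : ∀ z : M.G, ∃ j, ‖(y j)⁻¹ * z‖ < 1 := fun z => by
    have ho : IsOpen {w : M.G | ‖w⁻¹ * z‖ < 1} :=
      isOpen_lt (continuous_norm.comp (continuous_inv.mul continuous_const)) continuous_const
    obtain ⟨j, hj⟩ := (TopologicalSpace.denseRange_denseSeq M.G).exists_mem_open ho
      ⟨z, by simp [one_def]⟩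
    exact ⟨j, hj⟩
  refine ⟨fun z => y (Nat.find (hex z)), fun f => ?_, fun z => ?_⟩
  · exact Measurable.find (f := fun j (_ : M.G) => f (y j)) (fun _ => measurable_const)
      (fun j => (isOpen_lt (continuous_norm.comp (continuous_const_mul (y j)⁻¹))
        continuous_const).measurableSet) hex
  · rw [wdist_comm]
    exact M.ln_le_one (Nat.find_spec (hex z)).le

theorem Phi_comp {Y : Type*} [Group Y] {S : Set H} {T : Set Y} (hT : Subgroup.closure T = ⊤)
    {K C K' C' : ℝ} {α : H → Y} {β : Y → H} (hα : IsQI S T K C α) (hβ : IsQI T S K' C' β) (g : H) :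
    IsQI T T (K' * K) (K * C' + 2 * C) fun z => α (g * β z) :=
  hβ.comp hT (hα.comp_mul_left g)

theorem exists_phi (hS : Subgroup.closure (S : Set H) = ⊤) (hα : IsQI (S : Set H) M.Q K C α) :
    ∃ (K' C' D : ℝ) (φ : H → M.G → M.G), ∀ g, M.MQI K' C' (φ g) ∧
      ∀ x, M.ln ((φ g (α x))⁻¹ * α (g * x)) ≤ D := by
  have hK := hα.1
  have hC := hα.2.1
  choose x hx using hα.2.2.2
  obtain ⟨β, hm, hβ⟩ := M.Phi_sel
  have h1 : ∀ z, wdist M.Q z (α (x (β z))) ≤ C + 1 := fun z => by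
    linarith [wdist_triangle M.closure_Q z (β z) (α (x (β z))), hx (β z), hβ z]
  obtain ⟨h2, h3⟩ := hα.inv (F' := fun z => x (β z)) hS M.closure_Q (by linarith : 0 ≤ C + 1) h1
  refine ⟨K * K, K * (K * (C + 2 * (C + 1))) + 2 * C, K * (K * (C + (C + 1))) + C,
    fun g z => α (g * x (β z)), fun g => ⟨⟨hm fun y => α (g * x y), ?_⟩, fun z => ?_⟩⟩
  · exact Phi_comp M.closure_Q hα h2 g
  refine (hα.2.2.1 (g * x (β (α z))) (g * z)).2.trans
    (add_le_add (mul_le_mul_of_nonneg_left ?_ (by linarith)) le_rfl)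
  rw [wdist_mul_left, wdist_comm]
  exact h3 z

theorem Phi_lim {a b E : ℝ} (h : ∀ t : ℝ, 0 ≤ t → t * a ≤ t * b + E) : a ≤ b := by
  by_contra hn
  have h0 : 0 < a - b := sub_pos.2 (not_le.1 hn)
  have h1 := h ((|E| + 1) / (a - b)) (by positivity)
  rw [← sub_le_iff_le_add', ← mul_sub, div_mul_cancel₀ _ h0.ne'] at h1
  linarith [le_abs_self E]

theorem t1_exact (h1 : M.T1Stmt) (K C : ℝ) : ∃ Cf : ℝ → ℝ, ∀ φ, M.MQI K C φ → ∃ w ∈ M.W,
    ∀ ε : ℝ, 0 < ε → ∀ p q,
      ‖M.A (φ q) - M.A (φ p) - w (M.A q - M.A p)‖ ≤ ε * M.ln (p⁻¹ * q) + Cf ε := by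
  choose! Cf hf using h1 K C
  obtain ⟨ι, i1, i2⟩ := M.exists_sec
  obtain ⟨c, c0, hc⟩ := M.W_sep
  obtain ⟨L, L0, hL⟩ := (LinearMap.toContinuousLinearMap ι).bound
  simp only [LinearMap.coe_toContinuousLinearMap'] at hL
  have e0 : 0 < c / (2 * L) := by positivity
  refine ⟨fun ε => Cf (min ε (c / (2 * L))), fun φ hφ => ?_⟩
  obtain ⟨w, hw, h2⟩ := hf _ e0 φ hφ
  refine ⟨w, hw, fun ε hε p q => ?_⟩
  obtain ⟨w', hw', h3⟩ := hf _ (lt_min hε e0) φ hφ
  obtain rfl : w = w' := hc w hw w' hw' fun v => Phi_lim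
    (E := c / L + Cf (c / (2 * L)) + Cf (min ε (c / (2 * L)))) fun t ht => by
      have a1 := h2 1 (ι (t • v))
      have a2 := h3 1 (ι (t • v))
      have a3 := M.ln_tame (Or.inr (i1 (t • v)))
      have a4 := hL (t • v)
      have a5 := norm_sub_le (M.A (φ (ι (t • v))) - M.A (φ 1) - w' (t • v))
        (M.A (φ (ι (t • v))) - M.A (φ 1) - w (t • v))
      have a6 := mul_le_mul_of_nonneg_right (min_le_right ε (c / (2 * L)))
        (M.ln_nonneg (ι (t • v)))
      rw [inv_one, one_mul, A_one, sub_zero, i2] at a1 a2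
      rw [sub_sub_sub_cancel_left, w.map_smul, w'.map_smul, ← smul_sub, norm_smul,
        Real.norm_of_nonneg ht, ← w.map_smul, ← w'.map_smul] at a5
      rw [norm_smul, Real.norm_of_nonneg ht] at a4
      have a7 := mul_le_mul_of_nonneg_left (a3.trans (add_le_add a4 le_rfl)) e0.le
      have a8 : c / (2 * L) * (L * (t * ‖v‖) + 1) * 2 = t * (c * ‖v‖) + c / L := by field_simp
      linarith
  exact (h3 p q).trans (add_le_add (mul_le_mul_of_nonneg_right (min_le_left _ _)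
    (M.ln_nonneg _)) le_rfl)

end Vale.Agent.P188.Geo
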