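import Vale.Agent.P188.F.GDefs

/-! Part F: volumes of boxes.
Plan.  `vb_proj`: `y * q = st y q` (`mul_eq_st`, `A_e`) and `st y q - q ∈ e` (`st_sub_mem` or
`LieBr.mem` with `span q ⊔ e`, `lie_key`).
`vb_prod`: `E = (K r) * (eᗮ ∩ closedBall 0 ρ)` is compact; `fubini_G` for its indicator; for
`q ∈ eᗮ`, `y ∈ e` (`subMu_ae`) with `y * q = y' * q'`, `vb_proj` gives `q = q'`, so `y = y'`; the
volume of the ball of `eᗮ` scales like `ρ ^ finrank` (`subMu_smul`, `ub_smul`-type bound).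
`vol_box_up`: `b ∈ Q` is `x' * ζ'` (`len_unit`); `x ζ x' ζ' = x * (ζ x' ζ⁻¹) * (ζ ζ')`,
`ζ x' ζ⁻¹ = Ad ζ x'` (`conj_eq`, `Ad_Z_K`, `wv (A ζ) i ≤ wmax * ℓ ≤ R`), `ζ ζ' ∈ Z (C (ρ + ρ₀))`
(`Z_mul`), split it by `proj_Z`, multiply the three `e`-factors by `K_prod`, bound the projection
by `Z_norm`; then `vb_prod`, `vol_K`, `Phi_le_add`; absorb constants with `len_log`.
`vol_box_low`: `fubini_G` for the compact set `K R * Q`, restricted to `q ∈ eᗮ ∩ Q`
(`subMu_pos`), and `vol_K`. -/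

namespace Vale.Agent.P188.Geo
open scoped Pointwise
open MeasureTheory
variable (M : Geo)

theorem vb_proj {y q : M.G} (hy : y ∈ M.e) (hq : q ∈ M.eᗮ) : M.eᗮ.starProjection (y * q) = q := by
  have key := M.lie_key q
  have h1 := M.bchG.mem _ _ (fun a ha b hb => Submodule.mem_sup_right (key a ha b hb)) key
    (Submodule.mem_sup_right hy) (Submodule.mem_sup_left (Submodule.mem_span_singleton_self q))
  rw [M.mul_eq_st (Or.inl (M.A_e hy)), M.lie_st, map_add,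
    Submodule.starProjection_orthogonal_apply_eq_zero (M.e.add_mem h1 hy), zero_add,
    Submodule.starProjection_eq_self_iff.2 hq]

theorem vb_ind {A B : Set M.G} {x y : M.G} (h : x ∈ A → y ∈ B) :
    A.indicator (1 : M.G → ENNReal) x ≤ B.indicator (1 : M.G → ENNReal) y := by
  by_cases hx : x ∈ A
  · simp [hx, h hx]
  · simp [hx]

theorem vb_fin {S : Set M.G} (h : IsCompact S) : M.mE S ≠ ⊤ := h.measure_ne_top (μ := subMu M.e)

theorem vb_prod : ∃ C : ℝ, 1 ≤ C ∧ ∀ (r : Fin M.d → ℝ) (ρ : ℝ), 1 ≤ ρ →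
    volume (M.K r * ((M.eᗮ : Set M.G) ∩ Metric.closedBall 0 ρ)) ≤
      ENNReal.ofReal (C * ρ ^ M.d * Real.exp (M.Phi r)) := by
  obtain ⟨Ck, ck, hk⟩ := M.vol_K
  have f1 : subMu M.eᗮ (Metric.closedBall 0 1) ≠ ⊤ := (isCompact_closedBall _ _).measure_ne_top
  refine ⟨max 1 ((subMu M.eᗮ).real (Metric.closedBall 0 1) * Ck), le_max_left _ _,
    fun r ρ hρ => ?_⟩
  have cE : IsCompact (M.K r * ((M.eᗮ : Set M.G) ∩ Metric.closedBall 0 ρ)) :=
    (M.K_isLB r).compact.mul ((isCompact_closedBall _ _).inter_left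
      M.eᗮ.closed_of_finiteDimensional)
  have h1 : volume (M.K r * ((M.eᗮ : Set M.G) ∩ Metric.closedBall 0 ρ)) ≤
      M.mE (M.K r) * subMu M.eᗮ (Metric.closedBall 0 ρ) := by
    rw [← lintegral_indicator_one cE.measurableSet,
      M.fubini_G (measurable_one.indicator cE.measurableSet),
      ← lintegral_indicator_const measurableSet_closedBall]
    refine lintegral_mono_ae ?_
    filter_upwards [subMu_ae M.eᗮ] with q hq
    have h2 : ∀ y ∈ M.e, y * q ∈ M.K r * ((M.eᗮ : Set M.G) ∩ Metric.closedBall 0 ρ) →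
        y ∈ M.K r ∧ q ∈ Metric.closedBall 0 ρ := by
      rintro y hy ⟨y', hy', q', ⟨h3, h4⟩, e⟩
      have e2 : q' = q := by
        rw [← M.vb_proj hy hq, ← e]
        exact (M.vb_proj (M.K_sub_e _ hy') h3).symm
      subst e2
      exact ⟨mul_right_cancel e ▸ hy', h4⟩
    by_cases hb : q ∈ Metric.closedBall (0 : M.G) ρ
    · rw [Set.indicator_of_mem hb, ← lintegral_indicator_one (M.K_isLB r).compact.measurableSet]
      refine lintegral_mono_ae ?_
      filter_upwards [subMu_ae M.e] with y hy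
      exact M.vb_ind (fun h => (h2 y hy h).1)
    · rw [Set.indicator_of_notMem hb]
      refine le_of_eq (lintegral_congr_ae (g := fun _ => 0) ?_ |>.trans lintegral_zero)
      filter_upwards [subMu_ae M.e] with y hy
      exact Set.indicator_of_notMem (fun h => hb (h2 y hy h).2) _
  have e : Metric.closedBall (0 : M.G) ρ = ρ • Metric.closedBall 0 1 := by
    rw [smul_unitClosedBall_of_nonneg (by linarith)]
  refine h1.trans ?_
  rw [← ofReal_measureReal (M.vb_fin (M.K_isLB r).compact),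
    ← ofReal_measureReal ((isCompact_closedBall (0 : M.G) ρ).measure_ne_top (μ := subMu M.eᗮ)),
    ← ENNReal.ofReal_mul measureReal_nonneg, e, subMu_real_smul _ _ (by linarith)]
  refine ENNReal.ofReal_le_ofReal ?_
  have h3 : ρ ^ Module.finrank ℝ M.eᗮ ≤ ρ ^ M.d := pow_le_pow_right₀ hρ
    ((Submodule.finrank_le M.eᗮ).trans (le_of_eq finrank_euclideanSpace_fin))
  calc _ ≤ Ck * Real.exp (M.Phi r) * (ρ ^ M.d * (subMu M.eᗮ).real (Metric.closedBall 0 1)) := by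
        gcongr
        exact (hk r).2
    _ = (subMu M.eᗮ).real (Metric.closedBall 0 1) * Ck * ρ ^ M.d * Real.exp (M.Phi r) := by ring
    _ ≤ _ := by
        gcongr
        exact le_max_right _ _

theorem vb_wt (j) : ‖M.wt j‖ ≤ M.wmax :=
  Finset.single_le_sum (f := fun i => ‖M.wt i‖) (fun _ _ => norm_nonneg _) (Finset.mem_univ j)

theorem vb_wmax : 0 ≤ M.wmax := Finset.sum_nonneg fun _ _ => norm_nonneg _

theorem vb_log {a ρ : ℝ} (ha : 0 < a) (hρ : 0 ≤ ρ) : Real.log a ≤ 2 * a * Real.log (2 + ρ) := by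
  linarith [Real.log_le_sub_one_of_pos ha, mul_le_mul_of_nonneg_left (len_log hρ) ha.le]

theorem vb_exp {a ρ : ℝ} (ha : 0 < a) (hρ : 0 ≤ ρ) : a ≤ Real.exp (2 * a * Real.log (2 + ρ)) :=
  (Real.log_le_iff_le_exp ha).1 (vb_log ha hρ)

theorem vb_log₂ {a b ρ : ℝ} (ha : 1 ≤ a) (hb : 0 ≤ b) (hρ : 0 ≤ ρ) :
    Real.log (2 + a * (ρ + b)) ≤ (2 * (a * (1 + b)) + 1) * Real.log (2 + ρ) := by
  have h1 : Real.log (2 + a * (ρ + b)) ≤ Real.log (a * (1 + b) * (2 + ρ)) :=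
    Real.log_le_log (by positivity) (by
      nlinarith [mul_nonneg (zero_le_one.trans ha) hb,
        mul_nonneg (zero_le_one.trans ha) (mul_nonneg hb hρ)])
  rw [Real.log_mul (by positivity) (by positivity)] at h1
  linarith [vb_log (by positivity : 0 < a * (1 + b)) hρ]

theorem vb_sub : ∃ κ : ℝ, 0 ≤ κ ∧ ∀ R ρ ℓ : ℝ, 0 ≤ ρ → 0 ≤ ℓ → M.wmax * ℓ ≤ R →
    M.Box R ρ ℓ * M.Q ⊆ M.K (fun _ => R + κ * Real.log (2 + ρ)) *
      ((M.eᗮ : Set M.G) ∩ Metric.closedBall 0 (Real.exp (κ * Real.log (2 + ρ)))) := by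
  obtain ⟨τ₀, ρ₀, t0, r0, hu⟩ := M.len_unit
  obtain ⟨Ca, ca, ha⟩ := M.Ad_Z_K
  obtain ⟨Cz, cz, hz⟩ := M.Z_mul
  obtain ⟨Cp, cp, hp⟩ := M.proj_Z
  obtain ⟨Ck, ck, hk⟩ := M.K_prod
  obtain ⟨Cn, cn, hn⟩ := M.Z_norm
  obtain ⟨b, hb⟩ : ∃ b, b = 2 * (Cz * (1 + ρ₀)) + 1 := ⟨_, rfl⟩
  have b0 : 0 ≤ b := by rw [hb]; positivity
  refine ⟨2 * τ₀ + Ca + Cp * b + 2 * (Ck * 4) + (2 * Cn + M.c * b), by positivity,
    fun R ρ ℓ hρ hℓ hR => ?_⟩
  rintro _ ⟨_, ⟨x, hx, ζ, hζ, hA, rfl⟩, u, hu', rfl⟩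
  obtain ⟨x', hx', ζ', hζ', rfl⟩ := hu u (Or.inl hu')
  have L0 := len_log hρ
  have L1 := vb_log₂ cz r0 hρ
  rw [← hb] at L1
  have L2 := vb_log (by positivity : 0 < Ck * 4) hρ
  obtain ⟨L, hL⟩ : ∃ L, L = Real.log (2 + ρ) := ⟨_, rfl⟩
  have L3 := vb_exp (by positivity : 0 < Cn) hρ
  rw [← hL] at L0 L1 L2 L3 ⊢
  have L4 : 0 ≤ L := by linarith
  have R0 : 0 ≤ R := (mul_nonneg M.vb_wmax hℓ).trans hR
  have z1 : ζ * ζ' ∈ M.Z (Cz * (ρ + ρ₀)) := hz _ (by positivity) _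
    (M.Z_mono hρ (by linarith) hζ) _ (M.Z_mono r0 (by linarith) hζ')
  have z2 := hp _ (by positivity) _ z1
  have z3 := ha ρ _ hρ (fun _ _ _ => rfl) ζ hζ ⟨x', hx', rfl⟩
  rw [← hL] at z3
  have p1 : 0 ≤ Ca * L := by positivity
  have p2 : 0 ≤ Cp * b * L := by positivity
  have p3 : τ₀ ≤ 2 * τ₀ * L := by nlinarith
  have p4 := mul_le_mul_of_nonneg_left L1 (zero_le_one.trans cp)
  have z4 := hk (fun _ => R + (2 * τ₀ + Ca + Cp * b) * L)
    [x, M.Ad ζ x', ζ * ζ' * (M.eᗮ.starProjection (ζ * ζ'))⁻¹] (by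
      simp only [List.mem_cons, List.not_mem_nil, or_false, forall_eq_or_imp, forall_eq]
      refine ⟨M.K_mono (fun _ _ => by linarith) hx, M.K_mono (fun i _ => ?_) z3,
        M.K_mono (fun _ _ => by linarith) z2⟩
      have : M.wv (M.A ζ) i ≤ M.wmax * ℓ := (real_inner_le_norm _ _).trans
        (mul_le_mul (M.vb_wt i) hA (norm_nonneg _) M.vb_wmax)
      linarith)
  refine ⟨_, M.K_mono (fun _ _ => ?_) z4, M.eᗮ.starProjection (ζ * ζ'),
    ⟨M.eᗮ.starProjection_apply_mem _, ?_⟩, ?_⟩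
  · have e : Ck * (1 + ([x, M.Ad ζ x', ζ * ζ' * (M.eᗮ.starProjection (ζ * ζ'))⁻¹].length : ℝ)) =
        Ck * 4 := by
      simp only [List.length_cons, List.length_nil]
      norm_num
    rw [e]
    linarith [(by positivity : 0 ≤ (2 * Cn + M.c * b) * L)]
  · rw [mem_closedBall_zero_iff]
    refine ((M.eᗮ.norm_starProjection_apply_le _).trans (hn _ (by positivity) _ z1)).trans ?_
    have h1 : 1 + Cz * (ρ + ρ₀) ≤ Real.exp (b * L) :=
      le_trans (by linarith) ((Real.log_le_iff_le_exp (by positivity)).1 L1)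
    refine (mul_le_mul L3 (pow_le_pow_left₀ (by positivity) h1 _) (by positivity)
      (by positivity)).trans ?_
    rw [← Real.exp_nat_mul, ← Real.exp_add, Real.exp_le_exp]
    linarith [(by positivity : 0 ≤ (2 * τ₀ + 2 * (Ck * 4)) * L)]
  · simp only [List.prod_cons, List.prod_nil, mul_one]
    rw [← M.conj_eq (Or.inl (M.A_e (M.K_sub_e _ hx')))]
    group

theorem vol_box_up : ∃ C : ℝ, 1 ≤ C ∧ ∀ R ρ ℓ : ℝ, 0 ≤ ρ → 0 ≤ ℓ → C * ℓ ≤ R →
    volume (M.Box R ρ ℓ * M.Q) ≤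
      ENNReal.ofReal (Real.exp (M.Phi (fun _ => R) + C * Real.log (2 + ρ))) := by
  obtain ⟨κ, κ0, hκ⟩ := M.vb_sub
  obtain ⟨Cv, cv, hv⟩ := M.vb_prod
  have w0 := M.vb_wmax
  have p0 : 0 ≤ 2 * Cv + M.d * κ + M.d * M.c * κ := by positivity
  refine ⟨1 + M.wmax + (2 * Cv + M.d * κ + M.d * M.c * κ), by linarith, fun R ρ ℓ hρ hℓ hR => ?_⟩
  have L0 := len_log hρ
  have p1 : 0 ≤ κ * Real.log (2 + ρ) := mul_nonneg κ0 (by linarith)
  refine (measure_mono (hκ R ρ ℓ hρ hℓ (by linarith [mul_nonneg p0 hℓ]))).trans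
    ((hv _ _ (Real.one_le_exp p1)).trans (ENNReal.ofReal_le_ofReal ?_))
  have h1 := M.Phi_le_add (r := fun _ => R) (r' := fun _ => R + κ * Real.log (2 + ρ)) p1
    fun _ _ => le_rfl
  refine (mul_le_mul (mul_le_mul_of_nonneg_right (vb_exp (by positivity) hρ) (by positivity))
    (Real.exp_le_exp.2 h1) (by positivity) (by positivity)).trans ?_
  rw [← Real.exp_nat_mul, ← Real.exp_add, ← Real.exp_add, Real.exp_le_exp]
  linarith [mul_nonneg w0 (by linarith : 0 ≤ Real.log (2 + ρ))]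

theorem vol_box_low : ∃ C : ℝ, 1 ≤ C ∧ ∀ R : ℝ,
    ENNReal.ofReal (Real.exp (M.Phi (fun _ => R))) ≤
      ENNReal.ofReal C * volume (M.K (fun _ => R) * M.Q) := by
  obtain ⟨Ck, ck, hk⟩ := M.vol_K
  have cQ : IsCompact M.Q := isCompact_closedBall _ _
  have f1 : subMu M.eᗮ M.Q ≠ ⊤ := cQ.measure_ne_top
  have f2 : subMu M.eᗮ M.Q ≠ 0 :=
    subMu_pos M.eᗮ one_pos fun x _ hx => mem_closedBall_zero_iff.2 hx
  have f3 : 0 < (subMu M.eᗮ).real M.Q := ENNReal.toReal_pos f2 f1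
  refine ⟨max 1 (Ck / (subMu M.eᗮ).real M.Q), le_max_left _ _, fun R => ?_⟩
  have cK := (M.K_isLB fun _ => R).compact
  have h1 : M.mE (M.K fun _ => R) * subMu M.eᗮ M.Q ≤ volume (M.K (fun _ => R) * M.Q) := by
    rw [← lintegral_indicator_one (cK.mul cQ).measurableSet,
      M.fubini_G (measurable_one.indicator (cK.mul cQ).measurableSet),
      ← lintegral_indicator_const cQ.measurableSet]
    refine lintegral_mono fun q => ?_
    by_cases hb : q ∈ M.Q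
    · rw [Set.indicator_of_mem hb, ← lintegral_indicator_one cK.measurableSet]
      exact lintegral_mono fun y => M.vb_ind fun h => ⟨y, h, q, hb, rfl⟩
    · rw [Set.indicator_of_notMem hb]
      exact zero_le
  refine le_trans ?_ (mul_le_mul_right h1 _)
  rw [← ofReal_measureReal (M.vb_fin cK), ← ofReal_measureReal f1,
    ← ENNReal.ofReal_mul measureReal_nonneg, ← ENNReal.ofReal_mul (by positivity)]
  refine ENNReal.ofReal_le_ofReal ((hk _).1.trans ?_)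
  calc _ = Ck / (subMu M.eᗮ).real M.Q * (M.mE.real (M.K fun _ => R) * (subMu M.eᗮ).real M.Q) := by
        field_simp
    _ ≤ _ := mul_le_mul_of_nonneg_right (le_max_right _ _) (by positivity)

end Vale.Agent.P188.Geo
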