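import Vale.Agent.P188.F.Count
import Vale.Agent.P188.F.VolBox

/-! Part F: counting in boxes; neighbourhoods of large boxes grow polynomially.
Plan.  `count_box`: `count_up` and `vol_box_up`, back to reals; absorb the constant with `len_log`.
`subExp`: given `m`, let `ℓ = 1 + C' + K m + C`, `R` large (`≥ C (ℓ+1)` and `≥ Cbox * CA * C (ℓ+1)`),
`F` from `count_low` for the compact set `T = K R * Q` (nonempty since the volume is positive,
`vol_box_low`), `F' = F * ball m` (`finite_ball`, `Finset.image₂`).  For `g ∈ F`, `wlen b ≤ m`: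
`α (g b) = x * u` with `x ∈ K R`, `ln u ≤ ℓ`, `u = x' ζ` (`nf_of_ln`), `x x' ∈ K (R + log (3 C))`
(`K_prod` with `[x, x']`), `‖A ζ‖ ≤ CA * C (ℓ+1)` (`Z_A`).  So `card F' ≤ C exp (Phi (R + const) +
C log (2 + C (ℓ+1))) ≤ C'' (m+1)^D exp (Phi R)` (`Phi_le_add`) and `exp (Phi R) ≤ C card F`. -/

namespace Vale.Agent.P188.Geo
open scoped Pointwise
open MeasureTheory
variable (M : Geo) {H : Type*} [Group H] {S : Finset H} {K C : ℝ} {α : H → M.G}

theorem count_box (hS : Subgroup.closure (S : Set H) = ⊤) (hα : IsQI (S : Set H) M.Q K C α) :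
    ∃ C₀ : ℝ, 1 ≤ C₀ ∧ ∀ (R ρ ℓ : ℝ) (F : Finset H), 0 ≤ ρ → 0 ≤ ℓ → C₀ * ℓ ≤ R →
      (∀ g ∈ F, α g ∈ M.Box R ρ ℓ) →
      (F.card : ℝ) ≤ Real.exp (M.Phi (fun _ => R) + C₀ * Real.log (2 + ρ)) := by
  obtain ⟨C₁, c1, h1⟩ := M.count_up hS hα
  obtain ⟨C₂, c2, h2⟩ := M.vol_box_up
  refine ⟨C₂ + 2 * C₁, by linarith, fun R ρ ℓ F hρ hℓ hR hF => ?_⟩
  have h3 := (h1 F _ hF).trans (mul_le_mul_right (h2 R ρ ℓ hρ hℓ
    (by linarith [mul_nonneg (zero_le_one.trans c1) hℓ])) _)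
  rw [← ENNReal.ofReal_mul (by positivity), ← ENNReal.ofReal_natCast,
    ENNReal.ofReal_le_ofReal_iff (by positivity)] at h3
  refine h3.trans ((mul_le_mul_of_nonneg_right (vb_exp (by positivity) hρ) (by positivity)).trans ?_)
  rw [← Real.exp_add, Real.exp_le_exp]
  linarith

theorem sb_exp (a : ℝ) {x : ℝ} (hx : 1 ≤ x) : Real.exp (a * Real.log x) ≤ x ^ ⌈a⌉₊ := by
  calc _ ≤ Real.exp (⌈a⌉₊ * Real.log x) :=
        Real.exp_le_exp.2 (mul_le_mul_of_nonneg_right (Nat.le_ceil a) (Real.log_nonneg hx))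
    _ = _ := by rw [Real.exp_nat_mul, Real.exp_log (by linarith)]

theorem subExp (hS : Subgroup.closure (S : Set H) = ⊤) (hα : IsQI (S : Set H) M.Q K C α) :
    SubExp (S : Set H) := by
  classical
  obtain ⟨C₀, c0, h0⟩ := M.count_box hS hα
  obtain ⟨C₁, c1, h1⟩ := M.count_low hS hα
  obtain ⟨C₂, c2, h2⟩ := M.vol_box_low
  obtain ⟨Cn, cn, hn⟩ := M.nf_of_ln
  obtain ⟨Ck, ck, hk⟩ := M.K_prod
  obtain ⟨CA, cA, hA⟩ := M.Z_A
  have K1 := hα.1
  have C0 := hα.2.1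
  obtain ⟨a, ha⟩ : ∃ a, a = Cn * (2 + C₁ + K + C) := ⟨_, rfl⟩
  have a0 : 0 ≤ a := by rw [ha]; positivity
  have k0 : 0 ≤ Real.log (Ck * 3) := Real.log_nonneg (by linarith)
  refine ⟨Real.exp (M.d * M.c * Real.log (Ck * 3)) * (2 + a) ^ ⌈C₀⌉₊ * (C₂ * C₁), ⌈C₀⌉₊,
    fun m => ?_⟩
  obtain ⟨ρ, hρ⟩ : ∃ ρ : ℝ, ρ = Cn * (1 + C₁ + (K * m + C) + 1) := ⟨_, rfl⟩
  have ρ0 : 0 ≤ ρ := by rw [hρ]; positivity
  have ρ1 : ρ ≤ a * (m + 1) := by
    rw [hρ, ha, mul_assoc]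
    refine mul_le_mul_of_nonneg_left ?_ (by positivity)
    nlinarith [(by positivity : 0 ≤ (2 + C₁ + C) * m)]
  obtain ⟨R, hR⟩ : ∃ R : ℝ, R = ρ + C₀ * (CA * ρ) := ⟨_, rfl⟩
  have p0 : 0 ≤ C₀ * (CA * ρ) := by positivity
  have cQ : IsCompact M.Q := isCompact_closedBall _ _
  obtain ⟨F, hF, hF'⟩ := h1 _ ((M.K_isLB fun _ => R).compact.mul cQ)
  have h3 := (h2 R).trans (mul_le_mul_right hF' _)
  rw [← ENNReal.ofReal_natCast, ← ENNReal.ofReal_mul (by positivity),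
    ← ENNReal.ofReal_mul (by positivity), ENNReal.ofReal_le_ofReal_iff (by positivity)] at h3
  refine ⟨F, Finset.image₂ (· * ·) F (finite_ball S.finite_toSet hS m).toFinset, ?_,
    fun g hg b hb => Finset.mem_image₂_of_mem hg (by simpa using hb), ?_⟩
  · rw [← Finset.card_pos, ← Nat.cast_pos (α := ℝ)]
    exact pos_of_mul_pos_right (pos_of_mul_pos_right ((Real.exp_pos _).trans_le h3)
      (by positivity)) (by positivity)
  refine (h0 (R + Real.log (Ck * 3)) ρ (CA * ρ) _ ρ0 (by positivity) (by linarith) ?_).trans ?_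
  · intro y hy
    obtain ⟨g, hg, b, hb, rfl⟩ := Finset.mem_image₂.1 hy
    obtain ⟨_, ⟨x, hx, q, hq, rfl⟩, h4⟩ := hF g hg
    have hb' : (wlen (S : Set H) b : ℝ) ≤ m := by
      exact_mod_cast (by simpa using hb : wlen (S : Set H) b ≤ m)
    have h5 := (hα.2.2.1 g (g * b)).2
    rw [wdist_mul_right, M.wdist_eq] at h5
    have h6 : M.ln (q * ((x * q)⁻¹ * α g) * ((α g)⁻¹ * α (g * b))) ≤ 1 + C₁ + (K * m + C) := by
      linarith [M.ln_mul (q * ((x * q)⁻¹ * α g)) ((α g)⁻¹ * α (g * b)),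
        M.ln_mul q ((x * q)⁻¹ * α g), M.ln_le_one (mem_closedBall_zero_iff.1 hq),
        mul_le_mul_of_nonneg_left hb' (zero_le_one.trans K1)]
    obtain ⟨x', hx', ζ, hζ, e⟩ := hn _ _ h6
    rw [← hρ] at hx' hζ
    have h7 := hk (fun _ => R) [x, x'] (by
      simp only [List.mem_cons, List.not_mem_nil, or_false, forall_eq_or_imp, forall_eq]
      exact ⟨hx, M.K_mono (fun _ _ => by linarith) hx'⟩)
    refine ⟨x * x', ?_, ζ, hζ, (hA ρ ρ0 ζ hζ).2, ?_⟩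
    · simp only [List.prod_cons, List.prod_nil, mul_one, List.length_cons, List.length_nil] at h7
      refine M.K_mono (fun _ _ => le_of_eq ?_) h7
      norm_num
    · rw [mul_assoc, ← e]
      group
  have h4 := M.Phi_le_add (r := fun _ => R) (r' := fun _ => R + Real.log (Ck * 3)) k0
    fun _ _ => le_rfl
  have h5 : Real.exp (C₀ * Real.log (2 + ρ)) ≤ (2 + a) ^ ⌈C₀⌉₊ * ((m : ℝ) + 1) ^ ⌈C₀⌉₊ := by
    rw [← mul_pow]
    refine (sb_exp _ (by linarith)).trans (pow_le_pow_left₀ (by positivity) ?_ _)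
    linarith [(by positivity : (0 : ℝ) ≤ m)]
  rw [Real.exp_add]
  refine (mul_le_mul ((Real.exp_le_exp.2 h4).trans_eq (Real.exp_add _ _)) h5 (by positivity)
    (by positivity)).trans ?_
  calc _ ≤ C₂ * (C₁ * F.card) * Real.exp (M.d * M.c * Real.log (Ck * 3)) *
        ((2 + a) ^ ⌈C₀⌉₊ * ((m : ℝ) + 1) ^ ⌈C₀⌉₊) := by gcongr
    _ = _ := by ring

end Vale.Agent.P188.Geo
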